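import Vale.Agent.P154.AF.HomCert

/-!
# Coefficient certificates on boxes

An expression in three box variables `x = (lo + hi ρ) / (q + q ρ)` is turned into a numerator over
powers of the three denominators; nonnegative coefficients prove nonnegativity on the box.
-/

namespace Vale.P154.AF.Hom

/-- Polynomials in three variables. -/
abbrev P3 : Type := List P2

def add3 : P3 → P3 → P3
  | [], q => q
  | p, [] => p
  | a :: p, b :: q => add2 a b :: add3 p q

def mul3 : P3 → P3 → P3
  | [], _ => []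
  | a :: p, q => add3 (q.map (mul2 a)) ([] :: mul3 p q)

def pow3 (p : P3) : ℕ → P3
  | 0 => [[[1]]]
  | n + 1 => mul3 p (pow3 p n)

noncomputable def ev3 : P3 → ℝ → ℝ → ℝ → ℝ
  | [], _, _, _ => 0
  | a :: p, x, y, z => ev2 a y z + x * ev3 p x y z

theorem ev3_add (p q : P3) (x y z : ℝ) : ev3 (add3 p q) x y z = ev3 p x y z + ev3 q x y z := by
  induction p generalizing q with
  | nil => simp [add3, ev3]
  | cons a p ih =>
    cases q with
    | nil => simp [add3, ev3]
    | cons b q => simp [add3, ev3, ev2_add, ih]; ring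

theorem ev3_smul (a : P2) (q : P3) (x y z : ℝ) :
    ev3 (q.map (mul2 a)) x y z = ev2 a y z * ev3 q x y z := by
  induction q with
  | nil => simp [ev3]
  | cons b q ih => simp [ev3, ev2_mul, ih]; ring

theorem ev3_mul (p q : P3) (x y z : ℝ) : ev3 (mul3 p q) x y z = ev3 p x y z * ev3 q x y z := by
  induction p with
  | nil => simp [mul3, ev3]
  | cons a p ih => simp [mul3, ev3, ev2, ev3_add, ev3_smul, ih]; ring

theorem ev3_pow (p : P3) (n : ℕ) (x y z : ℝ) : ev3 (pow3 p n) x y z = ev3 p x y z ^ n := by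
  induction n with
  | zero => simp [pow3, ev3, ev2, ev1]
  | succ n ih => simp [pow3, ev3_mul, ih, pow_succ']

theorem ev3_nonneg (p : P3) (h : p.all nn) {x y z : ℝ} (hx : 0 ≤ x) (hy : 0 ≤ y) (hz : 0 ≤ z) :
    0 ≤ ev3 p x y z := by
  induction p with
  | nil => simp [ev3]
  | cons a p ih =>
    simp only [List.all_cons, Bool.and_eq_true] at h
    have h1 := ev2_nonneg a h.1 hy hz
    have h2 := ih h.2
    simp only [ev3]; positivity

/-- An interval with common denominator: `[lo / q, hi / q]`. -/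
structure Ivl where
  lo : ℤ
  hi : ℤ
  q : ℕ

/-- The point of an interval with parameter `ρ ≥ 0`. -/
noncomputable def Ivl.pt (I : Ivl) (r : ℝ) : ℝ := (I.lo + I.hi * r) / (I.q + I.q * r)

/-- The product of the three denominators to the given powers. -/
def den (I J K : Ivl) (i j k : ℕ) : P3 :=
  mul3 (mul3 (pow3 [[[(I.q : ℤ)]], [[(I.q : ℤ)]]] i) (pow3 [[[(J.q : ℤ)], [(J.q : ℤ)]]] j))
    (pow3 [[[(K.q : ℤ), (K.q : ℤ)]]] k)

/-- A numerator with the exponents of the three denominators. -/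
def E.num (I J K : Ivl) : E → P3 × ℕ × ℕ × ℕ
  | .C z => ([[[z]]], 0, 0, 0)
  | .A => ([[[I.lo]], [[I.hi]]], 1, 0, 0)
  | .B => ([[[J.lo], [J.hi]]], 0, 1, 0)
  | .G => ([[[K.lo, K.hi]]], 0, 0, 1)
  | .add e f =>
    let (p, a, b, c) := e.num I J K
    let (q, a', b', c') := f.num I J K
    (add3 (mul3 p (den I J K (max a a' - a) (max b b' - b) (max c c' - c)))
      (mul3 q (den I J K (max a a' - a') (max b b' - b') (max c c' - c'))),
      max a a', max b b', max c c')
  | .sub e f =>
    let (p, a, b, c) := e.num I J K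
    let (q, a', b', c') := f.num I J K
    (add3 (mul3 p (den I J K (max a a' - a) (max b b' - b) (max c c' - c)))
      (mul3 (mul3 [[[-1]]] q) (den I J K (max a a' - a') (max b b' - b') (max c c' - c'))),
      max a a', max b b', max c c')
  | .mul e f =>
    let (p, a, b, c) := e.num I J K
    let (q, a', b', c') := f.num I J K
    (mul3 p q, a + a', b + b', c + c')
  | .pow e n =>
    let (p, a, b, c) := e.num I J K
    (pow3 p n, a * n, b * n, c * n)

section

variable {I J K : Ivl} {x y z : ℝ}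

theorem ev3_den (i j k : ℕ) :
    ev3 (den I J K i j k) x y z =
      (I.q + I.q * x : ℝ) ^ i * (J.q + J.q * y : ℝ) ^ j * (K.q + K.q * z : ℝ) ^ k := by
  simp [den, ev3_mul, ev3_pow, ev3, ev2, ev1]
  ring

theorem E.ev3_num (e : E) (hI : (I.q + I.q * x : ℝ) ≠ 0) (hJ : (J.q + J.q * y : ℝ) ≠ 0)
    (hK : (K.q + K.q * z : ℝ) ≠ 0) :
    ev3 (e.num I J K).1 x y z = e.val (I.pt x) (J.pt y) (K.pt z) *
      ((I.q + I.q * x : ℝ) ^ (e.num I J K).2.1 * (J.q + J.q * y : ℝ) ^ (e.num I J K).2.2.1 *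
        (K.q + K.q * z : ℝ) ^ (e.num I J K).2.2.2) := by
  have split : ∀ {r : ℝ} {m n : ℕ}, m ≤ n → r ^ m * r ^ (n - m) = r ^ n := fun h => by
    rw [← pow_add, Nat.add_sub_cancel' h]
  induction e with
  | C c => simp [E.num, E.val, ev3, ev2, ev1]
  | A => simp [E.num, E.val, ev3, ev2, ev1, Ivl.pt, div_mul_cancel₀ _ hI]; ring
  | B => simp [E.num, E.val, ev3, ev2, ev1, Ivl.pt, div_mul_cancel₀ _ hJ]; ring
  | G => simp [E.num, E.val, ev3, ev2, ev1, Ivl.pt, div_mul_cancel₀ _ hK]; ring
  | add e f he hf =>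
    simp only [E.num, E.val, ev3_add, ev3_mul, ev3_den, he, hf]
    rw [add_mul]
    congr 1
    · conv_rhs => rw [← split (le_max_left _ (f.num I J K).2.1),
        ← split (le_max_left _ (f.num I J K).2.2.1), ← split (le_max_left _ (f.num I J K).2.2.2)]
      ring
    · conv_rhs => rw [← split (le_max_right (e.num I J K).2.1 _),
        ← split (le_max_right (e.num I J K).2.2.1 _), ← split (le_max_right (e.num I J K).2.2.2 _)]
      ring
  | sub e f he hf =>
    simp only [E.num, E.val, ev3_add, ev3_mul, ev3_den, he, hf, sub_eq_add_neg]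
    rw [add_mul]
    congr 1
    · conv_rhs => rw [← split (le_max_left _ (f.num I J K).2.1),
        ← split (le_max_left _ (f.num I J K).2.2.1), ← split (le_max_left _ (f.num I J K).2.2.2)]
      ring
    · conv_rhs => rw [← split (le_max_right (e.num I J K).2.1 _),
        ← split (le_max_right (e.num I J K).2.2.1 _), ← split (le_max_right (e.num I J K).2.2.2 _)]
      simp [ev3, ev2, ev1]
      ring
  | mul e f he hf => simp only [E.num, E.val, ev3_mul, he, hf, pow_add]; ring
  | pow e n he => simp only [E.num, E.val, ev3_pow, he, mul_pow, ← pow_mul]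

end

/-- The certificate on a half-open box, extended by the parameter `ρ`. -/
theorem E.val_nonneg_box (I J K : Ivl) (hI : 0 < I.q) (hJ : 0 < J.q) (hK : 0 < K.q) (e : E)
    (h : (e.num I J K).1.all nn) {x y z : ℝ} (hx : 0 ≤ x) (hy : 0 ≤ y) (hz : 0 ≤ z) :
    0 ≤ e.val (I.pt x) (J.pt y) (K.pt z) := by
  have p : ∀ {q : ℕ} {r : ℝ}, 0 < q → 0 ≤ r → (0 : ℝ) < q + q * r := fun hq hr => by
    have : (0 : ℝ) < (_ : ℕ) := Nat.cast_pos.2 hq
    positivity
  have h0 := ev3_nonneg _ h hx hy hz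
  rw [E.ev3_num e (p hI hx).ne' (p hJ hy).ne' (p hK hz).ne'] at h0
  exact (mul_nonneg_iff_of_pos_right (mul_pos (mul_pos (pow_pos (p hI hx) _) (pow_pos (p hJ hy) _))
    (pow_pos (p hK hz) _))).1 h0

/-- Every point of an interval but the right end has a parameter. -/
theorem Ivl.exists_pt (I : Ivl) (hq : 0 < I.q) {v : ℝ} (h1 : (I.lo : ℝ) / I.q ≤ v)
    (h2 : v < (I.hi : ℝ) / I.q) : ∃ r, 0 ≤ r ∧ I.pt r = v := by
  have q0 : (0 : ℝ) < I.q := Nat.cast_pos.2 hq
  rw [div_le_iff₀ q0] at h1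
  rw [lt_div_iff₀ q0] at h2
  have hh : 0 < (I.hi : ℝ) - v * I.q := by linarith
  refine ⟨(v * I.q - I.lo) / (I.hi - v * I.q), div_nonneg (by linarith) hh.le, ?_⟩
  have hl : (0 : ℝ) < I.hi - I.lo := by linarith
  unfold Ivl.pt
  rw [div_eq_iff]
  · field_simp; ring
  · have : (0 : ℝ) < I.q + I.q * ((v * I.q - I.lo) / (I.hi - v * I.q)) := by
      have : 0 ≤ (v * I.q - I.lo) / (I.hi - v * I.q) := div_nonneg (by linarith) hh.le
      positivity
    exact this.ne'

end Vale.P154.AF.Hom
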