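import Vale.Agent.P154.Tree

/-!
# Exactly multiplicative functionals for the antiferromagnetic three-state channel

`f1 f2 f3` are averages over relabellings of monomials of degree one (exponents in sixths), so the
posterior of a node satisfies exact product identities for them.  `GG` is the Lyapunov function
and `MM` the convex majorant of the nonlinear part of the recursion.
-/

noncomputable section

namespace Vale.P154.AF6

/-- The sixth root. -/
def s6 (x : ℝ) : ℝ := x ^ ((1 : ℝ) / 6)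

/-- Exponents `(2,2,2)/6` in the sixth roots. -/
def q1 (a b c : ℝ) : ℝ := (a * b * c) ^ 2

/-- Exponents `(3,2,1)/6`, symmetrised. -/
def q2 (a b c : ℝ) : ℝ :=
  a * b * c * (a ^ 2 * b + a ^ 2 * c + b ^ 2 * a + b ^ 2 * c + c ^ 2 * a + c ^ 2 * b) / 6

/-- Exponents `(4,1,1)/6`, symmetrised. -/
def q3 (a b c : ℝ) : ℝ := a * b * c * (a ^ 3 + b ^ 3 + c ^ 3) / 3

/-- `1 - q` at the sixth roots of `1 + y`. -/
def dd (q : ℝ → ℝ → ℝ → ℝ) (y : Fin 3 → ℝ) : ℝ :=
  1 - q (s6 (1 + y 0)) (s6 (1 + y 1)) (s6 (1 + y 2))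

/-- The linear combination defining the Lyapunov function. -/
def lin (m1 m2 m3 : ℝ) : ℝ := -110 * m1 + 15521 / 100 * m2 - 3754 / 100 * m3

/-- The Lyapunov function. -/
def GG (y : Fin 3 → ℝ) : ℝ := lin (dd q1 y) (dd q2 y) (dd q3 y)

/-- The linear form in the majorant. -/
def ee (m1 m2 m3 : ℝ) : ℝ := 121 * m1 - 180 * m2 + 60 * m3

/-- The constant of the majorant. -/
def kk : ℝ := 871 / 1000

/-- The first-order coefficient of the Lyapunov function. -/
def aa : ℝ := 989 / 1440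

/-- The convex majorant. -/
def MM (k x1 x2 x3 : ℝ) : ℝ := k * ee x1 x2 x3 ^ 2 / (2 + 5 * x1)

/-- A polyhedral cone containing all the vectors `(dd q1, dd q2, dd q3) (lam • y)`. -/
structure Cone (x1 x2 x3 : ℝ) : Prop where
  h0 : 0 ≤ x1
  h1 : 0 ≤ -1451 * x1 + 9810 * x2 - 10000 * x3
  h2 : 0 ≤ 780 * x1 - 9000 * x2 + 10000 * x3
  h3 : 0 ≤ 4422 * x1 - 13000 * x2 + 10000 * x3
  h4 : 0 ≤ 5976 * x1 - 14700 * x2 + 10000 * x3
  h5 : 0 ≤ 7169 * x1 - 16000 * x2 + 10000 * x3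
  h6 : 0 ≤ -901 * x1 + 1000 * x2

/-- The nonlinear part of the recursion for `d` children, in the variables `x = d m`. -/
def regN (d : ℕ) (x1 x2 x3 : ℝ) : ℝ :=
  lin (1 - (1 - x1 / d) ^ d - x1) (1 - (1 - x2 / d) ^ d - x2) (1 - (1 - x3 / d) ^ d - x3)

/-- The nonlinear part of the recursion for Poisson children, in the variables `x = d m`. -/
def poisN (x1 x2 x3 : ℝ) : ℝ :=
  lin (1 - Real.exp (-x1) - x1) (1 - Real.exp (-x2) - x2) (1 - Real.exp (-x3) - x3)

/-- A point of the simplex in sixth roots: `1 + y = (a^6, b^6, c^6)`. -/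
structure Root (a b c : ℝ) : Prop where
  ha : 0 ≤ a
  hb : 0 ≤ b
  hc : 0 ≤ c
  hs : a ^ 6 + b ^ 6 + c ^ 6 = 3

/-- A point `lam • y` with `-1/√5 ≤ lam ≤ 0`: no coordinate of `1 + lam • y` exceeds `1.44722`. -/
structure Small (a b c : ℝ) : Prop extends Root a b c where
  la : a ^ 6 ≤ 144722 / 100000
  lb : b ^ 6 ≤ 144722 / 100000
  lc : c ^ 6 ≤ 144722 / 100000

/-- The sum of squares of `1 + y = (a^6, b^6, c^6)` minus one. -/
def pp (a b c : ℝ) : ℝ := (a ^ 6 - 1) ^ 2 + (b ^ 6 - 1) ^ 2 + (c ^ 6 - 1) ^ 2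

/-- The sum of cubes. -/
def tt (a b c : ℝ) : ℝ := (a ^ 6 - 1) ^ 3 + (b ^ 6 - 1) ^ 3 + (c ^ 6 - 1) ^ 3

/-- The upper bound separating the two sides. -/
def UU (p t : ℝ) : ℝ :=
  aa * p + (26840 / 1000000 * p ^ 2 + 24196 / 1000000 * p * t - 512 / 1000000 * p ^ 3
    - 5850 / 1000000 * t ^ 2) / (1 - 155 / 1000 * t + 7 / 100 * p)

/-- Upper bound for the Lyapunov function at a small point. -/
def gUp (P T : ℝ) : ℝ := aa * P + 3712 / 100000 * P ^ 2 / (1 - 7 / 10 * T)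

/-- Upper bound for `ee` at a small point. -/
def eUp (P T : ℝ) : ℝ :=
  P / 6 - 19 / 36 * T + (1265 / 10000 * P ^ 2 - 2013 / 10000 * P * T)
    / (1 + 65 / 100 * T - 2 / 10 * P)

/-- Lower bound for `dd q1` at a small point. -/
def xLo (P T : ℝ) : ℝ :=
  P / 6 - T / 9 + (275 / 10000 * P ^ 2 - 3966 / 100000 * P * T) / (1 + 95 / 100 * T)

end Vale.P154.AF6
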