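import Vale.Agent.P154.AF.KronCert
import Vale.Agent.P154.AF.BoxCert

/-!
# Packed coefficient certificates on boxes

The numerator on a box is tested at one point: powers of two far enough apart keep the coefficients
in separate digits.
-/

namespace Vale.P154.AF.Hom

/-- Integer value of a trivariate coefficient list. -/
def zev3 : P3 → ℤ → ℤ → ℤ → ℤ
  | [], _, _, _ => 0
  | a :: p, x, y, z => zev2 a y z + x * zev3 p x y z

/-- Sum of absolute values. -/
def l3 : P3 → ℤ
  | [] => 0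
  | a :: p => l2 a + l3 p

theorem cast_zev3 (p : P3) (x y z : ℤ) : (zev3 p x y z : ℝ) = ev3 p x y z := by
  induction p with
  | nil => simp [zev3, ev3]
  | cons a p ih => simp [zev3, ev3, ih, cast_zev2]

theorem zev3_add (p q : P3) (x y z : ℤ) :
    zev3 (add3 p q) x y z = zev3 p x y z + zev3 q x y z := by
  have h := ev3_add p q (x : ℝ) y z
  simp only [← cast_zev3] at h
  exact_mod_cast h

theorem zev3_mul (p q : P3) (x y z : ℤ) :
    zev3 (mul3 p q) x y z = zev3 p x y z * zev3 q x y z := by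
  have h := ev3_mul p q (x : ℝ) y z
  simp only [← cast_zev3] at h
  exact_mod_cast h

theorem zev3_pow (p : P3) (n : ℕ) (x y z : ℤ) : zev3 (pow3 p n) x y z = zev3 p x y z ^ n := by
  have h := ev3_pow p n (x : ℝ) y z
  simp only [← cast_zev3] at h
  exact_mod_cast h

theorem l3_nonneg (p : P3) : 0 ≤ l3 p := by
  induction p with
  | nil => simp [l3]
  | cons a p ih => simp only [l3]; linarith [l2_nonneg a]

theorem l3_add (p q : P3) : l3 (add3 p q) ≤ l3 p + l3 q := by
  induction p generalizing q with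
  | nil => simp [add3, l3]
  | cons a p ih =>
    cases q with
    | nil => simp [add3, l3]
    | cons b q => simp only [add3, l3]; linarith [ih q, l2_add a b]

theorem l3_smul (a : P2) (q : P3) : l3 (q.map (mul2 a)) ≤ l2 a * l3 q := by
  induction q with
  | nil => simp [l3]
  | cons b q ih => simp only [List.map_cons, l3, mul_add]; linarith [l2_mul a b]

theorem l3_mul (p q : P3) : l3 (mul3 p q) ≤ l3 p * l3 q := by
  induction p with
  | nil => simp [mul3, l3]
  | cons a p ih =>
    simp only [mul3, l3, add_mul]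
    refine (l3_add _ _).trans ?_
    simp only [l3, l2, zero_add]
    linarith [l3_smul a q]

theorem l3_mul_le {p q : P3} {u v : ℤ} (hp : l3 p ≤ u) (hq : l3 q ≤ v) :
    l3 (mul3 p q) ≤ u * v :=
  (l3_mul p q).trans (mul_le_mul hp hq (l3_nonneg _) ((l3_nonneg _).trans hp))

theorem l3_pow (p : P3) (n : ℕ) : l3 (pow3 p n) ≤ l3 p ^ n := by
  induction n with
  | zero => simp [pow3, l3, l2, l1]
  | succ n ih =>
    rw [pow_succ']
    exact l3_mul_le le_rfl ih

/-- At most `a + 1` slices, each fitting in a square of side `n + 1`. -/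
def Fit3 (p : P3) (a n : ℕ) : Prop := p.length ≤ a + 1 ∧ ∀ q ∈ p, Fits q n

theorem length_add3 (p q : P3) : (add3 p q).length = max p.length q.length := by
  induction p generalizing q with
  | nil => simp [add3]
  | cons a p ih =>
    cases q with
    | nil => simp [add3]
    | cons b q => simp [add3, ih]

theorem fits_nil (n : ℕ) : Fits [] n := ⟨by simp, by simp⟩

theorem rows_add3 {n : ℕ} : ∀ {p q : P3}, (∀ r ∈ p, Fits r n) → (∀ r ∈ q, Fits r n) →
    ∀ r ∈ add3 p q, Fits r n
  | [], q, _, hq => by simpa [add3] using hq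
  | a :: p, [], hp, _ => by simpa [add3] using hp
  | a :: p, b :: q, hp, hq => by
      intro r hr
      simp only [add3, List.mem_cons] at hr
      rcases hr with rfl | hr
      · exact (hp a (by simp)).add (hq b (by simp))
      · exact rows_add3 (fun s h => hp s (by simp [h])) (fun s h => hq s (by simp [h])) r hr

theorem rows_mul3 {m n : ℕ} {q : P3} (hq : ∀ r ∈ q, Fits r n) : ∀ {p : P3},
    (∀ r ∈ p, Fits r m) → ∀ r ∈ mul3 p q, Fits r (m + n)
  | [], _ => by simp [mul3]
  | a :: p, hp => by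
      refine rows_add3 (fun r hr => ?_) fun r hr => ?_
      · obtain ⟨s, hs, rfl⟩ := List.mem_map.1 hr
        exact (hp a (by simp)).mul (hq s hs)
      · rcases List.mem_cons.1 hr with rfl | hr
        · exact fits_nil _
        · exact rows_mul3 hq (fun s h => hp s (by simp [h])) r hr

theorem length_mul3 (q : P3) {b : ℕ} (hq : q.length ≤ b + 1) : ∀ (p : P3) {a : ℕ},
    p.length ≤ a + 1 → (mul3 p q).length ≤ a + b + 1
  | [], a, _ => by simp [mul3]
  | c :: p, a, hp => by
      simp only [List.length_cons, Nat.add_le_add_iff_right] at hp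
      rw [mul3, length_add3, List.length_map, List.length_cons]
      rcases Nat.eq_zero_or_pos a with rfl | ha
      · rw [List.eq_nil_of_length_eq_zero (Nat.le_zero.1 hp)]
        simp [mul3]; omega
      · have := length_mul3 q hq p (a := a - 1) (by omega)
        omega

theorem Fit3.mono {p : P3} {a b m n : ℕ} (h : Fit3 p a m) (h1 : a ≤ b) (h2 : m ≤ n) :
    Fit3 p b n :=
  ⟨h.1.trans (by omega), fun q hq => (h.2 q hq).mono h2⟩

theorem Fit3.add {p q : P3} {a n : ℕ} (hp : Fit3 p a n) (hq : Fit3 q a n) :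
    Fit3 (add3 p q) a n :=
  ⟨by rw [length_add3]; exact max_le hp.1 hq.1, rows_add3 hp.2 hq.2⟩

theorem Fit3.mul {p q : P3} {a b m n : ℕ} (hp : Fit3 p a m) (hq : Fit3 q b n) :
    Fit3 (mul3 p q) (a + b) (m + n) :=
  ⟨length_mul3 q hq.1 p hp.1, rows_mul3 hq.2 hp.2⟩

theorem Fit3.pow {p : P3} {a m : ℕ} (hp : Fit3 p a m) :
    ∀ n : ℕ, Fit3 (pow3 p n) (a * n) (m * n)
  | 0 => by simp [pow3, Fit3, Fits]
  | n + 1 => by
      have h := Fit3.mul hp (Fit3.pow hp n)
      rwa [show a * (n + 1) = a + a * n by ring, show m * (n + 1) = m + m * n by ring]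

theorem fit_den (I J K : Ivl) (i j k : ℕ) : Fit3 (den I J K i j k) i (j + k) := by
  have h1 : Fit3 [[[(I.q : ℤ)]], [[(I.q : ℤ)]]] 1 0 := by simp [Fit3, Fits]
  have h2 : Fit3 [[[(J.q : ℤ)], [(J.q : ℤ)]]] 0 1 := by simp [Fit3, Fits]
  have h3 : Fit3 [[[(K.q : ℤ), (K.q : ℤ)]]] 0 1 := by simp [Fit3, Fits]
  exact (((h1.pow i).mul (h2.pow j)).mul (h3.pow k)).mono (by omega) (by omega)

/-- A bound and the value at `(x, y, z)` of the numerator, with the same exponents. -/
def E.numZ (I J K : Ivl) (x y z : ℤ) : E → ℤ × ℤ × ℕ × ℕ × ℕ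
  | .C c => (|c|, c, 0, 0, 0)
  | .A => (|I.lo| + |I.hi|, I.lo + x * I.hi, 1, 0, 0)
  | .B => (|J.lo| + |J.hi|, J.lo + y * J.hi, 0, 1, 0)
  | .G => (|K.lo| + |K.hi|, K.lo + z * K.hi, 0, 0, 1)
  | .add e f =>
    let (u, p, a, b, c) := e.numZ I J K x y z
    let (v, q, a', b', c') := f.numZ I J K x y z
    let dv (i j k : ℕ) : ℤ := (I.q + x * I.q) ^ i * (J.q + y * J.q) ^ j * (K.q + z * K.q) ^ k
    let db (i j k : ℕ) : ℤ := (2 * I.q) ^ i * (2 * J.q) ^ j * (2 * K.q) ^ k
    (u * db (max a a' - a) (max b b' - b) (max c c' - c) +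
      v * db (max a a' - a') (max b b' - b') (max c c' - c'),
      p * dv (max a a' - a) (max b b' - b) (max c c' - c) +
      q * dv (max a a' - a') (max b b' - b') (max c c' - c'),
      max a a', max b b', max c c')
  | .sub e f =>
    let (u, p, a, b, c) := e.numZ I J K x y z
    let (v, q, a', b', c') := f.numZ I J K x y z
    let dv (i j k : ℕ) : ℤ := (I.q + x * I.q) ^ i * (J.q + y * J.q) ^ j * (K.q + z * K.q) ^ k
    let db (i j k : ℕ) : ℤ := (2 * I.q) ^ i * (2 * J.q) ^ j * (2 * K.q) ^ k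
    (u * db (max a a' - a) (max b b' - b) (max c c' - c) +
      v * db (max a a' - a') (max b b' - b') (max c c' - c'),
      p * dv (max a a' - a) (max b b' - b) (max c c' - c) -
      q * dv (max a a' - a') (max b b' - b') (max c c' - c'),
      max a a', max b b', max c c')
  | .mul e f =>
    let (u, p, a, b, c) := e.numZ I J K x y z
    let (v, q, a', b', c') := f.numZ I J K x y z
    (u * v, p * q, a + a', b + b', c + c')
  | .pow e n =>
    let (u, p, a, b, c) := e.numZ I J K x y z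
    (u ^ n, p ^ n, a * n, b * n, c * n)

theorem zev3_den (I J K : Ivl) (i j k : ℕ) (x y z : ℤ) : zev3 (den I J K i j k) x y z =
    (I.q + x * I.q) ^ i * (J.q + y * J.q) ^ j * (K.q + z * K.q) ^ k := by
  simp [den, zev3_mul, zev3_pow, zev3, zev2, zev1]

theorem l3_den (I J K : Ivl) (i j k : ℕ) :
    l3 (den I J K i j k) ≤ (2 * I.q) ^ i * (2 * J.q) ^ j * (2 * K.q) ^ k := by
  refine l3_mul_le (l3_mul_le ((l3_pow _ _).trans ?_) ((l3_pow _ _).trans ?_))
    ((l3_pow _ _).trans ?_) <;>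
  · simp [l3, l2, l1, two_mul]

theorem add_max_l (a b : ℕ) : a + (max a b - a) ≤ max a b := by omega

theorem add_max_r (a b : ℕ) : b + (max a b - b) ≤ max a b := by omega

theorem add_max_l2 (a b c d : ℕ) : a + b + ((max a c - a) + (max b d - b)) ≤ max a c + max b d := by
  omega

theorem add_max_r2 (a b c d : ℕ) : c + d + ((max a c - c) + (max b d - d)) ≤ max a c + max b d := by
  omega

theorem E.numZ_spec (I J K : Ivl) (x y z : ℤ) (e : E) :
    (e.numZ I J K x y z).2.2 = (e.num I J K).2 ∧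
    (e.numZ I J K x y z).2.1 = zev3 (e.num I J K).1 x y z ∧
    l3 (e.num I J K).1 ≤ (e.numZ I J K x y z).1 ∧
    Fit3 (e.num I J K).1 (e.num I J K).2.1 ((e.num I J K).2.2.1 + (e.num I J K).2.2.2) := by
  induction e with
  | C c => simp [E.num, E.numZ, zev3, zev2, zev1, l3, l2, l1, Fit3, Fits]
  | A => simp [E.num, E.numZ, zev3, zev2, zev1, l3, l2, l1, Fit3, Fits]
  | B => simp [E.num, E.numZ, zev3, zev2, zev1, l3, l2, l1, Fit3, Fits]
  | G => simp [E.num, E.numZ, zev3, zev2, zev1, l3, l2, l1, Fit3, Fits]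
  | add e f he hf =>
    obtain ⟨e1, e2, e3, e4⟩ := he
    obtain ⟨f1, f2, f3, f4⟩ := hf
    refine ⟨?_, ?_, ?_, ?_⟩
    · simp only [E.numZ, E.num, e1, f1]
    · simp only [E.numZ, E.num, e1, f1, e2, f2, zev3_add, zev3_mul, zev3_den]
    · simp only [E.numZ, E.num, e1, f1]
      exact (l3_add _ _).trans
        (add_le_add (l3_mul_le e3 (l3_den ..)) (l3_mul_le f3 (l3_den ..)))
    · simp only [E.num]
      exact ((e4.mul (fit_den ..)).mono (add_max_l ..) (add_max_l2 ..)).add
        ((f4.mul (fit_den ..)).mono (add_max_r ..) (add_max_r2 ..))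
  | sub e f he hf =>
    obtain ⟨e1, e2, e3, e4⟩ := he
    obtain ⟨f1, f2, f3, f4⟩ := hf
    have hneg : Fit3 [[[(-1 : ℤ)]]] 0 0 := by simp [Fit3, Fits]
    refine ⟨?_, ?_, ?_, ?_⟩
    · simp only [E.numZ, E.num, e1, f1]
    · simp only [E.numZ, E.num, e1, f1, e2, f2, zev3_add, zev3_mul, zev3_den]
      simp [zev3, zev2, zev1, sub_eq_add_neg]
    · simp only [E.numZ, E.num, e1, f1]
      refine (l3_add _ _).trans
        (add_le_add (l3_mul_le e3 (l3_den ..)) (l3_mul_le ?_ (l3_den ..)))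
      exact (l3_mul _ _).trans (by simpa [l3, l2, l1] using f3)
    · simp only [E.num]
      exact ((e4.mul (fit_den ..)).mono (add_max_l ..) (add_max_l2 ..)).add
        (((hneg.mul f4).mul (fit_den ..)).mono (by rw [zero_add]; exact add_max_r ..)
          (by rw [zero_add]; exact add_max_r2 ..))
  | mul e f he hf =>
    obtain ⟨e1, e2, e3, e4⟩ := he
    obtain ⟨f1, f2, f3, f4⟩ := hf
    refine ⟨?_, ?_, ?_, ?_⟩
    · simp only [E.numZ, E.num, e1, f1]
    · simp only [E.numZ, E.num, e2, f2, zev3_mul]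
    · simp only [E.numZ, E.num]
      exact l3_mul_le e3 f3
    · simp only [E.num]
      exact (e4.mul f4).mono le_rfl (le_of_eq (add_add_add_comm ..))
  | pow e n he =>
    obtain ⟨e1, e2, e3, e4⟩ := he
    refine ⟨?_, ?_, ?_, ?_⟩
    · simp only [E.numZ, E.num, e1]
    · simp only [E.numZ, E.num, e2, zev3_pow]
    · simp only [E.numZ, E.num]
      exact (l3_pow _ _).trans (pow_le_pow_left₀ (l3_nonneg _) e3 n)
    · simp only [E.num]
      exact (e4.pow n).mono le_rfl (by rw [add_mul])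

theorem mem_flat (n : ℕ) : ∀ p : P2, ∀ r ∈ p, ∀ a ∈ r, a ∈ flat n p
  | [], r, hr => by simp at hr
  | s :: p, r, hr => fun a ha => by
      simp only [flat, List.mem_append]
      rcases List.mem_cons.1 hr with rfl | hr
      · exact Or.inl (Or.inl ha)
      · exact Or.inr (mem_flat n p r hr a ha)

theorem flat_mem (n : ℕ) : ∀ p : P2, ∀ a ∈ flat n p, a = 0 ∨ ∃ r ∈ p, a ∈ r
  | [], a, ha => by simp [flat] at ha
  | r :: p, a, ha => by
      simp only [flat, List.mem_append, List.mem_replicate] at ha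
      rcases ha with (ha | ha) | ha
      · exact Or.inr ⟨r, by simp, ha⟩
      · exact Or.inl ha.2
      · rcases flat_mem n p a ha with h | ⟨s, hs, has⟩
        · exact Or.inl h
        · exact Or.inr ⟨s, by simp [hs], has⟩

theorem zev2_map_flat (n : ℕ) (x w : ℤ) : ∀ p : P3, (∀ q ∈ p, Fits q n) →
    zev2 (p.map (flat n)) x w = zev3 p x (w ^ (n + 1)) w
  | [], _ => by simp [zev2, zev3]
  | q :: p, h => by
      simp only [List.map_cons, zev2, zev3, (zev1_flat n w q (h q (by simp)).2).1,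
        zev2_map_flat n x w p fun r hr => h r (by simp [hr])]

theorem abs_le_l3 : ∀ (p : P3), ∀ q ∈ p, l2 q ≤ l3 p
  | [], q, h => by simp at h
  | s :: p, q, h => by
      rcases List.mem_cons.1 h with rfl | h
      · simp only [l3]; linarith [l3_nonneg p]
      · simp only [l3]; linarith [abs_le_l3 p q h, l2_nonneg s]

/-- The bits `K * i + (K - 1)` for `i < 2 ^ j`, built by doubling. -/
def dblMask (K : ℕ) : ℕ → ℕ
  | 0 => Nat.shiftLeft 1 (K - 1)
  | j + 1 => dblMask K j ||| Nat.shiftLeft (dblMask K j) (K * 2 ^ j)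

theorem dblMask_testBit {K : ℕ} : ∀ {j i : ℕ}, i < 2 ^ j →
    (dblMask K j).testBit (K * i + (K - 1)) := by
  intro j
  induction j with
  | zero => intro i h; simp [dblMask, show i = 0 by omega]
  | succ j ih =>
    intro i hi
    simp only [dblMask, Nat.testBit_or, Nat.shiftLeft_eq', Nat.testBit_shiftLeft, Bool.or_eq_true]
    rcases lt_or_ge i (2 ^ j) with h | h
    · exact Or.inl (ih h)
    · right
      obtain ⟨k, rfl⟩ : ∃ k, i = 2 ^ j + k := ⟨i - 2 ^ j, by omega⟩
      have hk : k < 2 ^ j := by rw [pow_succ] at hi; omega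
      rw [mul_add, show K * 2 ^ j + K * k + (K - 1) - K * 2 ^ j = K * k + (K - 1) by omega, ih hk]
      simp only [Bool.and_true, decide_eq_true_eq]
      omega

/-- The packed test on a box: `a`, `n` bound the degrees in the first and in the other variables. -/
def E.kronBox (I J K : Ivl) (e : E) (a n j D : ℕ) : Bool :=
  let r := e.numZ I J K ((2 ^ (D * ((n + 1) * (n + 1))) : ℕ) : ℤ) ((2 ^ (D * (n + 1)) : ℕ) : ℤ)
    ((2 ^ D : ℕ) : ℤ)
  decide (1 ≤ D) && decide (r.1 < ((2 ^ (D - 1) : ℕ) : ℤ)) && decide (0 ≤ r.2.1) &&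
    decide (r.2.2.1 ≤ a) && decide (r.2.2.2.1 + r.2.2.2.2 ≤ n) &&
    decide ((a + 1) * ((n + 1) * (n + 1)) ≤ 2 ^ j) && Nat.beq (r.2.1.toNat &&& dblMask D j) 0

/-- The packed test proves that the coefficients are nonnegative. -/
theorem E.num_nn_of_kron {I J K : Ivl} {e : E} {a n j D : ℕ}
    (h : e.kronBox I J K a n j D = true) :
    (e.num I J K).1.all nn = true := by
  simp only [E.kronBox, Bool.and_eq_true, decide_eq_true_eq] at h
  obtain ⟨⟨⟨⟨⟨⟨hD, hB⟩, hN⟩, ha⟩, hn⟩, hj⟩, hM⟩ := h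
  push_cast at hB hN ha hn hM
  set X : ℤ := (2 : ℤ) ^ (D * ((n + 1) * (n + 1))) with hX
  set Y : ℤ := (2 : ℤ) ^ (D * (n + 1)) with hY
  set W : ℤ := (2 : ℤ) ^ D
  obtain ⟨s1, s2, s3, s4⟩ := e.numZ_spec I J K X Y W
  rw [s1] at ha hn
  set p := (e.num I J K).1
  have s5 : Fit3 p a n := s4.mono ha hn
  obtain ⟨M, hMe⟩ : ∃ M, (n + 1) * (n + 1) = M + 1 :=
    ⟨(n + 1) * (n + 1) - 1, by have : 1 ≤ (n + 1) * (n + 1) := Nat.one_le_iff_ne_zero.2 (by simp); omega⟩
  have hlen : ∀ r ∈ p.map (flat n), r.length ≤ M + 1 := by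
    intro r hr
    obtain ⟨q, hq, rfl⟩ := List.mem_map.1 hr
    rw [(zev1_flat n W q (s5.2 q hq).2).2, ← hMe]
    exact Nat.mul_le_mul_left _ (s5.2 q hq).1
  obtain ⟨hflat, hfl⟩ := zev1_flat M W (p.map (flat n)) hlen
  have hXW : X = W ^ (M + 1) := by rw [← hMe, hX, pow_mul]
  have hYW : Y = W ^ (n + 1) := by rw [hY, pow_mul]
  have hval : zev1 (flat M (p.map (flat n))) W = ((e.numZ I J K X Y W).2.1.toNat : ℤ) := by
    rw [hflat, zev2_map_flat n _ _ _ s5.2, ← hXW, ← hYW, ← s2, Int.toNat_of_nonneg hN]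
  have hsmall : ∀ c ∈ flat M (p.map (flat n)), |c| < (2 : ℤ) ^ (D - 1) := by
    intro c hc
    rcases flat_mem M _ c hc with rfl | ⟨r, hr, hcr⟩
    · simp
    obtain ⟨q, hq, rfl⟩ := List.mem_map.1 hr
    rcases flat_mem n q c hcr with rfl | ⟨t, ht, hct⟩
    · simp
    exact lt_of_le_of_lt ((((abs_le_l1 t c hct).trans (abs_le_l2 q t ht)).trans
      (abs_le_l3 p q hq)).trans s3) hB
  have hbits : ∀ i < (flat M (p.map (flat n))).length,
      (e.numZ I J K X Y W).2.1.toNat.testBit (D * i + (D - 1)) = false := by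
    intro i hi
    have hi' : i < (a + 1) * ((n + 1) * (n + 1)) := by
      rw [hfl, List.length_map] at hi
      rw [hMe, mul_comm]
      exact lt_of_lt_of_le hi (Nat.mul_le_mul_left _ s5.1)
    have h0 := congrArg (fun m => m.testBit (D * i + (D - 1))) (Nat.eq_of_beq_eq_true hM)
    simpa [Nat.testBit_and, dblMask_testBit (lt_of_lt_of_le hi' hj)] using h0
  have hall := digits_nonneg hD _ _ hsmall hval hbits
  simp only [nn, List.all_eq_true, decide_eq_true_eq]
  exact fun q hq r hr c hc => hall c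
    (mem_flat M _ _ (List.mem_map.2 ⟨q, hq, rfl⟩) c (mem_flat n q r hr c hc))

end Vale.P154.AF.Hom
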