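import Vale.Agent.P154.AF.Defs
import Vale.Agent.P154.AF.KronBox

/-!
# The final rational inequality

With `p = 6 s ^ 2` the cleared inequality has nonnegative coefficients on two boxes: in `(l, s, σ)`
with `t = p s σ` for `s ≤ 1/2`, and in `(l, s, ρ)` with `t = 6 s ^ 3 - 3 ρ (1 - s) ^ 2 (2 s + 1)`
for `1/2 ≤ s ≤ 1`.
-/

noncomputable section

namespace Vale.P154.AF6

open AF.Hom

namespace FinalCert

def p : E := .mul (.C 6) (.pow .B 2)
def t0 : E := .mul p (.mul .B .G)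
def t1 : E :=
  .sub (.mul (.C 6) (.pow .B 3))
    (.mul (.mul (.C 3) .G) (.mul (.pow (.sub (.C 1) .B) 2) (.add (.mul (.C 2) .B) (.C 1))))
def l2 : E := .pow .A 2
def l3 : E := .pow .A 3
def d1 (t : E) : E := .add (.C 10) (.mul (.C 7) (.mul l3 t))
def d2 (t : E) : E := .sub (.sub (.C 100) (.mul (.C 65) (.mul l3 t))) (.mul (.C 20) (.mul l2 p))
def d3 (t : E) : E := .sub (.C 100) (.mul (.C 95) (.mul l3 t))
def D (t : E) : E := .add (.sub (.C 1000) (.mul (.C 155) t)) (.mul (.C 70) p)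
def R (t : E) : E :=
  .sub (.sub (.add (.mul (.C 26840) (.pow p 2)) (.mul (.C 24196) (.mul p t)))
    (.mul (.C 512) (.pow p 3))) (.mul (.C 5850) (.pow t 2))
def NE (t : E) : E :=
  .add (.add (.mul (.mul (.C 25) (.add (.mul (.C 6) p) (.mul (.C 19) (.mul .A t)))) (d2 t))
    (.mul (.C 11385) (.mul l2 (.pow p 2)))) (.mul (.C 18117) (.mul (.mul l3 p) t))
def NX (t : E) : E :=
  .add (.add (.mul (.mul (.C 50)
    (.add (.add (.C 36) (.mul (.C 15) p)) (.mul (.C 10) (.mul .A t)))) (d3 t))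
    (.mul (.C 12375) (.mul l2 (.pow p 2)))) (.mul (.C 17847) (.mul (.mul l3 p) t))
def F (t : E) : E :=
  .sub
    (.sub (.mul (.C 900) (.mul (.mul (.mul (R t) (d1 t)) (.pow (d2 t) 2)) (NX t)))
      (.mul (.C 334080) (.mul (.mul (.mul (D t) (.mul l2 (.pow p 2))) (.pow (d2 t) 2)) (NX t))))
    (.mul (.C 871) (.mul (.mul (.mul (D t) (.pow (NE t) 2)) (d1 t)) (d3 t)))

def IL : Ivl := ⟨0, 44722, 100000⟩
def IS : Ivl := ⟨0, 1, 2⟩
def IG : Ivl := ⟨-1, 1, 1⟩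
def JS : Ivl := ⟨1, 2, 2⟩
def JG : Ivl := ⟨0, 1, 1⟩

theorem pos0 : ((F t0).num IL IS IG).1.all nn :=
  E.num_nn_of_kron (a := 14) (n := 28) (j := 14) (D := 370) (by decide +kernel)
theorem pos1 : ((F t1).num IL JS JG).1.all nn :=
  E.num_nn_of_kron (a := 14) (n := 28) (j := 14) (D := 370) (by decide +kernel)

theorem cont (e : E) : Continuous fun q : ℝ × ℝ × ℝ => e.val q.1 q.2.1 q.2.2 := by
  induction e with
  | C z => exact continuous_const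
  | A => exact continuous_fst
  | B => exact continuous_fst.comp continuous_snd
  | G => exact continuous_snd.comp continuous_snd
  | add e f he hf => exact he.add hf
  | sub e f he hf => exact he.sub hf
  | mul e f he hf => exact he.mul hf
  | pow e n he => exact he.pow n

theorem F_val (te : E) (l s g : ℝ) :
    (F te).val l s g =
      900 * ((26840 * (6 * s ^ 2) ^ 2 + 24196 * ((6 * s ^ 2) * te.val l s g)
          - 512 * (6 * s ^ 2) ^ 3 - 5850 * te.val l s g ^ 2) * (10 + 7 * (l ^ 3 * te.val l s g))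
        * (100 - 65 * (l ^ 3 * te.val l s g) - 20 * (l ^ 2 * (6 * s ^ 2))) ^ 2
        * (50 * (36 + 15 * (6 * s ^ 2) + 10 * (l * te.val l s g)) * (100 - 95 * (l ^ 3 * te.val l s g))
          + 12375 * (l ^ 2 * (6 * s ^ 2) ^ 2) + 17847 * (l ^ 3 * (6 * s ^ 2) * te.val l s g)))
      - 334080 * ((1000 - 155 * te.val l s g + 70 * (6 * s ^ 2)) * (l ^ 2 * (6 * s ^ 2) ^ 2)
        * (100 - 65 * (l ^ 3 * te.val l s g) - 20 * (l ^ 2 * (6 * s ^ 2))) ^ 2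
        * (50 * (36 + 15 * (6 * s ^ 2) + 10 * (l * te.val l s g)) * (100 - 95 * (l ^ 3 * te.val l s g))
          + 12375 * (l ^ 2 * (6 * s ^ 2) ^ 2) + 17847 * (l ^ 3 * (6 * s ^ 2) * te.val l s g)))
      - 871 * ((1000 - 155 * te.val l s g + 70 * (6 * s ^ 2))
        * (25 * (6 * (6 * s ^ 2) + 19 * (l * te.val l s g))
            * (100 - 65 * (l ^ 3 * te.val l s g) - 20 * (l ^ 2 * (6 * s ^ 2)))
          + 11385 * (l ^ 2 * (6 * s ^ 2) ^ 2) + 18117 * (l ^ 3 * (6 * s ^ 2) * te.val l s g)) ^ 2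
        * (10 + 7 * (l ^ 3 * te.val l s g)) * (100 - 95 * (l ^ 3 * te.val l s g))) := by
  simp only [F, NX, NE, R, D, d1, d2, d3, FinalCert.l2, FinalCert.l3, FinalCert.p, E.val]
  push_cast
  rfl

theorem t0_val (l s g : ℝ) : t0.val l s g = 6 * s ^ 2 * (s * g) := by
  simp [t0, FinalCert.p, E.val]

theorem t1_val (l s g : ℝ) :
    t1.val l s g = 6 * s ^ 3 - 3 * g * ((1 - s) ^ 2 * (2 * s + 1)) := by
  simp [t1, E.val]

theorem on_box (e : E) (I J K : Ivl) (hI : 0 < I.q) (hJ : 0 < J.q) (hK : 0 < K.q)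
    (h : (e.num I J K).1.all nn) (hI' : I.lo < I.hi) (hJ' : J.lo < J.hi) (hK' : K.lo < K.hi)
    {x y z : ℝ} (hx : x ∈ Set.Icc ((I.lo : ℝ) / I.q) (I.hi / I.q))
    (hy : y ∈ Set.Icc ((J.lo : ℝ) / J.q) (J.hi / J.q))
    (hz : z ∈ Set.Icc ((K.lo : ℝ) / K.q) (K.hi / K.q)) : 0 ≤ e.val x y z := by
  have key : ∀ {L : Ivl}, 0 < L.q → L.lo < L.hi →
      ((L.lo : ℝ) / L.q) ≠ (L.hi : ℝ) / L.q := fun hq hl e => by
    rw [div_left_inj' (Nat.cast_ne_zero.2 hq.ne')] at e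
    exact hl.ne (by exact_mod_cast e)
  have hsub : (x, y, z) ∈ closure (Set.Ico ((I.lo : ℝ) / I.q) (I.hi / I.q) ×ˢ
      Set.Ico ((J.lo : ℝ) / J.q) (J.hi / J.q) ×ˢ Set.Ico ((K.lo : ℝ) / K.q) (K.hi / K.q)) := by
    rw [closure_prod_eq, closure_prod_eq, closure_Ico (key hI hI'), closure_Ico (key hJ hJ'),
      closure_Ico (key hK hK')]
    exact ⟨hx, hy, hz⟩
  refine closure_minimal ?_ (isClosed_le continuous_const (cont e)) hsub
  rintro ⟨a, b, c⟩ ⟨ha, hb, hc⟩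
  obtain ⟨r, hr, rfl⟩ := I.exists_pt hI ha.1 ha.2
  obtain ⟨u, hu, rfl⟩ := J.exists_pt hJ hb.1 hb.2
  obtain ⟨w, hw, rfl⟩ := K.exists_pt hK hc.1 hc.2
  exact e.val_nonneg_box I J K hI hJ hK h hr hu hw

/-- The cleared inequality. -/
def Wf (l p t : ℝ) : ℝ :=
  900 * ((26840 * p ^ 2 + 24196 * (p * t) - 512 * p ^ 3 - 5850 * t ^ 2) * (10 + 7 * (l ^ 3 * t))
      * (100 - 65 * (l ^ 3 * t) - 20 * (l ^ 2 * p)) ^ 2
      * (50 * (36 + 15 * p + 10 * (l * t)) * (100 - 95 * (l ^ 3 * t))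
        + 12375 * (l ^ 2 * p ^ 2) + 17847 * (l ^ 3 * p * t)))
    - 334080 * ((1000 - 155 * t + 70 * p) * (l ^ 2 * p ^ 2)
      * (100 - 65 * (l ^ 3 * t) - 20 * (l ^ 2 * p)) ^ 2
      * (50 * (36 + 15 * p + 10 * (l * t)) * (100 - 95 * (l ^ 3 * t))
        + 12375 * (l ^ 2 * p ^ 2) + 17847 * (l ^ 3 * p * t)))
    - 871 * ((1000 - 155 * t + 70 * p)
      * (25 * (6 * p + 19 * (l * t)) * (100 - 65 * (l ^ 3 * t) - 20 * (l ^ 2 * p))
        + 11385 * (l ^ 2 * p ^ 2) + 18117 * (l ^ 3 * p * t)) ^ 2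
      * (10 + 7 * (l ^ 3 * t)) * (100 - 95 * (l ^ 3 * t)))

theorem Wf_nonneg {l p t s : ℝ} (hs0 : 0 ≤ s) (hs1 : s ≤ 1) (hps : p = 6 * s ^ 2)
    (ha : |t| ≤ 6 * s ^ 3) (hv : 0 ≤ 1 - p / 2 + t / 3)
    (hL : l ∈ Set.Icc ((IL.lo : ℝ) / IL.q) (IL.hi / IL.q)) : 0 ≤ Wf l p t := by
  have ha1 := abs_le.1 ha
  rcases le_total s (1 / 2) with h | h
  · obtain ⟨g, hg1, hg2, hts⟩ : ∃ g, -1 ≤ g ∧ g ≤ 1 ∧ t = 6 * s ^ 2 * (s * g) := by
      rcases hs0.eq_or_lt with h | h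
      · exact ⟨0, by norm_num, by norm_num, by simpa [← h] using ha⟩
      · have h6 : (0 : ℝ) < 6 * s ^ 3 := by positivity
        refine ⟨t / (6 * s ^ 3), ?_, ?_, by field_simp⟩
        · rw [le_div_iff₀ h6]; linarith
        · rw [div_le_one h6]; linarith
    have e : (F t0).val l s g = Wf l p t := by
      rw [F_val, t0_val, ← hts, ← hps, Wf]
    rw [← e]
    refine on_box _ IL IS IG (by decide) (by decide) (by decide) pos0 (by decide) (by decide)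
      (by decide) hL ?_ ?_ <;> constructor <;> norm_num [IS, IG] <;> linarith
  · obtain ⟨g, hg1, hg2, hts⟩ : ∃ g, 0 ≤ g ∧ g ≤ 1 ∧
        t = 6 * s ^ 3 - 3 * g * ((1 - s) ^ 2 * (2 * s + 1)) := by
      rw [hps] at hv
      rcases hs1.eq_or_lt with h1 | h1
      · refine ⟨0, le_rfl, zero_le_one, ?_⟩
        rw [h1] at hv ha1 ⊢
        linarith
      · have hden : 0 < 3 * ((1 - s) ^ 2 * (2 * s + 1)) :=
          mul_pos three_pos (mul_pos (pow_pos (sub_pos.2 h1) 2) (by linarith))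
        refine ⟨(6 * s ^ 3 - t) / (3 * ((1 - s) ^ 2 * (2 * s + 1))),
          div_nonneg (by linarith) hden.le, ?_, ?_⟩
        · rw [div_le_one hden]; nlinarith
        · field_simp; ring
    have e : (F t1).val l s g = Wf l p t := by
      rw [F_val, t1_val, ← hts, ← hps, Wf]
    rw [← e]
    refine on_box _ IL JS JG (by decide) (by decide) (by decide) pos1 (by decide) (by decide)
      (by decide) hL ?_ ?_ <;> constructor <;> norm_num [JS, JG] <;> linarith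

theorem den_pos {p t l s : ℝ} (hp : 0 ≤ p) (hp6 : p ≤ 6) (hl : 0 < l) (hlL : l ≤ 44722 / 100000)
    (hs1 : s ≤ 1) (hps : p = 6 * s ^ 2) (ha : |t| ≤ 6 * s ^ 3) :
    0 < 10 + 7 * (l ^ 3 * t) ∧ 0 < 100 - 65 * (l ^ 3 * t) - 20 * (l ^ 2 * p) ∧
      0 < 100 - 95 * (l ^ 3 * t) ∧ 0 < 1000 - 155 * t + 70 * p ∧
      0 < 50 * (36 + 15 * p + 10 * (l * t)) * (100 - 95 * (l ^ 3 * t)) + 12375 * (l ^ 2 * p ^ 2)
        + 17847 * (l ^ 3 * p * t) := by
  have hs3 : 6 * s ^ 3 ≤ p := by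
    have := mul_le_mul_of_nonneg_left hs1 (sq_nonneg s)
    rw [hps]; linarith
  obtain ⟨t1, t2⟩ := abs_le.1 (ha.trans hs3)
  have hl3 : l ^ 3 ≤ 9 / 100 := (pow_le_pow_left₀ hl.le hlL 3).trans (by norm_num)
  have hl2 : l ^ 2 ≤ 2 / 10 + 1 / 100 := (pow_le_pow_left₀ hl.le hlL 2).trans (by norm_num)
  have h3p : l ^ 3 * p ≤ 54 / 100 :=
    (mul_le_mul hl3 hp6 hp (by norm_num)).trans (by norm_num)
  have a1 := mul_le_mul_of_nonneg_left t1 (pow_nonneg hl.le 3)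
  have a2 := mul_le_mul_of_nonneg_left t2 (pow_nonneg hl.le 3)
  have a3 : l ^ 2 * p ≤ 126 / 100 :=
    (mul_le_mul hl2 hp6 hp (by norm_num)).trans (by norm_num)
  have hX3p : 0 < 100 - 95 * (l ^ 3 * t) := by linarith
  refine ⟨by linarith, by linarith, hX3p, by linarith, ?_⟩
  have b1 := mul_le_mul_of_nonneg_left t1 hl.le
  have b2 : l * p ≤ 1 / 2 * p := mul_le_mul_of_nonneg_right (by linarith) hp
  have h1 : 0 < 36 + 15 * p + 10 * (l * t) := by linarith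
  have h2 : 0 ≤ 12375 * p + 17847 * (l * t) := by linarith
  have h3 : 0 ≤ l ^ 2 * p * (12375 * p + 17847 * (l * t)) := by positivity
  have := mul_pos h1 hX3p
  linarith

end FinalCert

open FinalCert in
theorem final {p t l : ℝ} (hp : 0 ≤ p) (hp6 : p ≤ 6) (ht : 6 * t ^ 2 ≤ p ^ 3)
    (hv : 0 ≤ 1 - p / 2 + t / 3) (hl : 0 < l) (hl5 : 5 * l ^ 2 ≤ 1) :
    gUp (l ^ 2 * p) (-(l ^ 3 * t)) / l ^ 2
      + kk * (eUp (l ^ 2 * p) (-(l ^ 3 * t)) / l ^ 2) ^ 2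
          / (2 + 5 * (xLo (l ^ 2 * p) (-(l ^ 3 * t)) / l ^ 2))
      ≤ UU p t := by
  set s := Real.sqrt (p / 6) with hs
  have hs0 : 0 ≤ s := Real.sqrt_nonneg _
  have hps : p = 6 * s ^ 2 := by rw [hs, Real.sq_sqrt (by linarith)]; ring
  have hs1 : s ≤ 1 := by nlinarith
  have ha : |t| ≤ 6 * s ^ 3 :=
    abs_le_of_sq_le_sq (by rw [hps] at ht; nlinarith) (by positivity)
  have ha1 := abs_le.1 ha
  have hlL : l ≤ 44722 / 100000 := by nlinarith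
  have hL : l ∈ Set.Icc ((IL.lo : ℝ) / IL.q) (IL.hi / IL.q) := by
    constructor <;> norm_num [IL] <;> linarith
  set X1 := (10 : ℝ) + 7 * (l ^ 3 * t) with hX1
  set X2 := (100 : ℝ) - 65 * (l ^ 3 * t) - 20 * (l ^ 2 * p) with hX2
  set X3 := (100 : ℝ) - 95 * (l ^ 3 * t) with hX3
  set X0 := (1000 : ℝ) - 155 * t + 70 * p with hX0
  set N1 := 25 * (6 * p + 19 * (l * t)) * X2 + 11385 * (l ^ 2 * p ^ 2)
      + 18117 * (l ^ 3 * p * t) with hN1
  set N2 := 50 * (36 + 15 * p + 10 * (l * t)) * X3 + 12375 * (l ^ 2 * p ^ 2)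
      + 17847 * (l ^ 3 * p * t) with hN2
  set W := 900 * ((26840 * p ^ 2 + 24196 * (p * t) - 512 * p ^ 3 - 5850 * t ^ 2) * X1 * X2 ^ 2 * N2)
      - 334080 * (X0 * (l ^ 2 * p ^ 2) * X2 ^ 2 * N2) - 871 * (X0 * N1 ^ 2 * X1 * X3) with hW
  have hW0 : 0 ≤ W := Wf_nonneg hs0 hs1 hps ha hv hL
  obtain ⟨hX1p, hX2p, hX3p, hX0p, hN2p⟩ : 0 < X1 ∧ 0 < X2 ∧ 0 < X3 ∧ 0 < X0 ∧ 0 < N2 :=
    FinalCert.den_pos hp hp6 hl hlL hs1 hps ha
  have eg : gUp (l ^ 2 * p) (-(l ^ 3 * t)) / l ^ 2 =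
      aa * p + 3712 / 10000 * (l ^ 2 * p ^ 2) / X1 := by
    have : 1 - 7 / 10 * -(l ^ 3 * t) = X1 / 10 := by rw [hX1]; ring
    simp only [gUp, this]; field_simp; ring
  have ee' : eUp (l ^ 2 * p) (-(l ^ 3 * t)) / l ^ 2 = N1 / (900 * X2) := by
    have : 1 + 65 / 100 * -(l ^ 3 * t) - 2 / 10 * (l ^ 2 * p) = X2 / 100 := by rw [hX2]; ring
    simp only [eUp, this, hN1]; field_simp; ring
  have ex : 2 + 5 * (xLo (l ^ 2 * p) (-(l ^ 3 * t)) / l ^ 2) = N2 / (900 * X3) := by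
    have : 1 + 95 / 100 * -(l ^ 3 * t) = X3 / 100 := by rw [hX3]; ring
    simp only [xLo, this, hN2]; field_simp; ring
  have eU : UU p t =
      aa * p + (26840 * p ^ 2 + 24196 * (p * t) - 512 * p ^ 3 - 5850 * t ^ 2) / (1000 * X0) := by
    have : 1 - 155 / 1000 * t + 7 / 100 * p = X0 / 1000 := by rw [hX0]; ring
    simp only [UU, this]; field_simp; ring
  have hpos : 0 ≤ W / (900000 * (X0 * X1 * X2 ^ 2 * N2)) := by positivity
  rw [eg, ex, ee', eU, ← sub_nonneg]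
  refine hpos.trans_eq ?_
  rw [hW, kk]
  field_simp
  ring

end Vale.P154.AF6
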