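import Mathlib

/-!
# Coefficient certificates for homogeneous polynomials in three variables

An expression is expanded by computation after a linear substitution whose first variable is set
to one; nonnegative coefficients prove nonnegativity on the image of the positive octant.
-/

namespace Vale.P154.AF.Hom

/-- Polynomials in one variable, by their coefficient lists. -/
abbrev P1 : Type := List ℤ

/-- Polynomials in two variables. -/
abbrev P2 : Type := List P1

def add1 : P1 → P1 → P1
  | [], q => q
  | p, [] => p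
  | a :: p, b :: q => (a + b) :: add1 p q

def mul1 : P1 → P1 → P1
  | [], _ => []
  | a :: p, q => add1 (q.map (a * ·)) (0 :: mul1 p q)

def add2 : P2 → P2 → P2
  | [], q => q
  | p, [] => p
  | a :: p, b :: q => add1 a b :: add2 p q

def mul2 : P2 → P2 → P2
  | [], _ => []
  | a :: p, q => add2 (q.map (mul1 a)) ([] :: mul2 p q)

def pow2 (p : P2) : ℕ → P2
  | 0 => [[1]]
  | n + 1 => mul2 p (pow2 p n)

noncomputable def ev1 : P1 → ℝ → ℝ
  | [], _ => 0
  | a :: p, w => a + w * ev1 p w

noncomputable def ev2 : P2 → ℝ → ℝ → ℝ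
  | [], _, _ => 0
  | a :: p, u, w => ev1 a w + u * ev2 p u w

theorem ev1_add (p q : P1) (w : ℝ) : ev1 (add1 p q) w = ev1 p w + ev1 q w := by
  induction p generalizing q with
  | nil => simp [add1, ev1]
  | cons a p ih =>
    cases q with
    | nil => simp [add1, ev1]
    | cons b q => simp [add1, ev1, ih]; ring

theorem ev1_smul (a : ℤ) (q : P1) (w : ℝ) : ev1 (q.map (a * ·)) w = a * ev1 q w := by
  induction q with
  | nil => simp [ev1]
  | cons b q ih => simp [ev1, ih]; ring

theorem ev1_mul (p q : P1) (w : ℝ) : ev1 (mul1 p q) w = ev1 p w * ev1 q w := by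
  induction p with
  | nil => simp [mul1, ev1]
  | cons a p ih => simp [mul1, ev1, ev1_add, ev1_smul, ih]; ring

theorem ev2_add (p q : P2) (u w : ℝ) : ev2 (add2 p q) u w = ev2 p u w + ev2 q u w := by
  induction p generalizing q with
  | nil => simp [add2, ev2]
  | cons a p ih =>
    cases q with
    | nil => simp [add2, ev2]
    | cons b q => simp [add2, ev2, ev1_add, ih]; ring

theorem ev2_smul (a : P1) (q : P2) (u w : ℝ) :
    ev2 (q.map (mul1 a)) u w = ev1 a w * ev2 q u w := by
  induction q with
  | nil => simp [ev2]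
  | cons b q ih => simp [ev2, ev1_mul, ih]; ring

theorem ev2_mul (p q : P2) (u w : ℝ) : ev2 (mul2 p q) u w = ev2 p u w * ev2 q u w := by
  induction p with
  | nil => simp [mul2, ev2]
  | cons a p ih => simp [mul2, ev2, ev1, ev2_add, ev2_smul, ih]; ring

theorem ev2_pow (p : P2) (n : ℕ) (u w : ℝ) : ev2 (pow2 p n) u w = ev2 p u w ^ n := by
  induction n with
  | zero => simp [pow2, ev2, ev1]
  | succ n ih => simp [pow2, ev2_mul, ih, pow_succ']

/-- Expressions in three variables with integer constants. -/
inductive E : Type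
  | C (z : ℤ)
  | A
  | B
  | G
  | add (e f : E)
  | sub (e f : E)
  | mul (e f : E)
  | pow (e : E) (n : ℕ)

/-- The value of an expression. -/
@[simp] def E.val : E → ℝ → ℝ → ℝ → ℝ
  | .C z, _, _, _ => z
  | .A, a, _, _ => a
  | .B, _, b, _ => b
  | .G, _, _, c => c
  | .add e f, a, b, c => e.val a b c + f.val a b c
  | .sub e f, a, b, c => e.val a b c - f.val a b c
  | .mul e f, a, b, c => e.val a b c * f.val a b c
  | .pow e n, a, b, c => e.val a b c ^ n

/-- A linear map by its nine entries, as the columns for the variables `z`, `u`, `w`. -/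
structure Lin where
  za : ℤ
  ua : ℤ
  wa : ℤ
  zb : ℤ
  ub : ℤ
  wb : ℤ
  zc : ℤ
  uc : ℤ
  wc : ℤ

def E.poly (T : Lin) : E → P2
  | .C z => [[z]]
  | .A => [[T.za, T.wa], [T.ua]]
  | .B => [[T.zb, T.wb], [T.ub]]
  | .G => [[T.zc, T.wc], [T.uc]]
  | .add e f => add2 (e.poly T) (f.poly T)
  | .sub e f => add2 (e.poly T) (mul2 [[-1]] (f.poly T))
  | .mul e f => mul2 (e.poly T) (f.poly T)
  | .pow e n => pow2 (e.poly T) n

theorem E.ev2_poly (T : Lin) (e : E) (u w : ℝ) :
    ev2 (e.poly T) u w =
      e.val (T.za + T.ua * u + T.wa * w) (T.zb + T.ub * u + T.wb * w)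
        (T.zc + T.uc * u + T.wc * w) := by
  induction e with
  | add e f he hf => simp [E.poly, E.val, ev2_add, he, hf]
  | sub e f he hf => simp [E.poly, E.val, ev2_add, ev2_mul, he, hf, ev2, ev1]; ring
  | mul e f he hf => simp [E.poly, E.val, ev2_mul, he, hf]
  | pow e n he => simp [E.poly, E.val, ev2_pow, he]
  | _ => simp [E.poly, E.val, ev2, ev1] <;> ring

/-- All coefficients are nonnegative. -/
def nn (p : P2) : Bool := p.all fun q => q.all fun a => decide (0 ≤ a)

theorem ev1_nonneg (p : P1) (h : ∀ a ∈ p, 0 ≤ a) {w : ℝ} (hw : 0 ≤ w) : 0 ≤ ev1 p w := by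
  induction p with
  | nil => simp [ev1]
  | cons a p ih =>
    have ha : (0 : ℝ) ≤ a := by exact_mod_cast h a (by simp)
    have := ih fun b hb => h b (by simp [hb])
    simp only [ev1]; positivity

theorem ev2_nonneg (p : P2) (h : nn p) {u w : ℝ} (hu : 0 ≤ u) (hw : 0 ≤ w) :
    0 ≤ ev2 p u w := by
  induction p with
  | nil => simp [ev2]
  | cons a p ih =>
    simp only [nn, List.all_cons, Bool.and_eq_true, List.all_eq_true, decide_eq_true_eq] at h
    have h1 := ev1_nonneg a h.1 hw
    have h2 := ih (by simp only [nn, List.all_eq_true, decide_eq_true_eq]; exact h.2)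
    simp only [ev2]; positivity

/-- The degree of a homogeneous expression. -/
def E.deg : E → Option ℕ
  | .C _ => some 0
  | .A => some 1
  | .B => some 1
  | .G => some 1
  | .add e f | .sub e f =>
    match e.deg, f.deg with
    | some m, some n => if m = n then some m else none
    | _, _ => none
  | .mul e f =>
    match e.deg, f.deg with
    | some m, some n => some (m + n)
    | _, _ => none
  | .pow e n => e.deg.map (· * n)

theorem E.val_smul (e : E) {n : ℕ} (h : e.deg = some n) (k a b c : ℝ) :
    e.val (k * a) (k * b) (k * c) = k ^ n * e.val a b c := by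
  induction e generalizing n with
  | add e f he hf =>
    simp only [E.deg] at h
    cases hm : e.deg <;> cases hn : f.deg <;> simp [hm, hn] at h
    simp only [E.val, he hm, hf hn, ← h.2, ← h.1]; ring
  | sub e f he hf =>
    simp only [E.deg] at h
    cases hm : e.deg <;> cases hn : f.deg <;> simp [hm, hn] at h
    simp only [E.val, he hm, hf hn, ← h.2, ← h.1]; ring
  | mul e f he hf =>
    simp only [E.deg] at h
    cases hm : e.deg <;> cases hn : f.deg <;> simp [hm, hn] at h
    simp only [E.val, he hm, hf hn, ← h]; ring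
  | pow e m he =>
    simp only [E.deg] at h
    cases hm : e.deg <;> simp [hm] at h
    simp only [E.val, he hm, ← h]; ring
  | _ => simp [E.deg] at h; subst h; simp [E.val]

theorem E.continuous_val (e : E) (f g h : ℝ → ℝ) (hf : Continuous f) (hg : Continuous g)
    (hh : Continuous h) : Continuous fun z => e.val (f z) (g z) (h z) := by
  induction e with
  | C z => exact continuous_const
  | A => exact hf
  | B => exact hg
  | G => exact hh
  | add e f he hf' => exact he.add hf'
  | sub e f he hf' => exact he.sub hf'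
  | mul e f he hf' => exact he.mul hf'
  | pow e n he => exact he.pow n

/-- The certificate: nonnegativity on the image of the closed octant. -/
theorem E.val_nonneg (T : Lin) (e : E) {n : ℕ} (hd : e.deg = some n) (h : nn (e.poly T))
    {z u w : ℝ} (hz : 0 ≤ z) (hu : 0 ≤ u) (hw : 0 ≤ w) :
    0 ≤ e.val (T.za * z + T.ua * u + T.wa * w) (T.zb * z + T.ub * u + T.wb * w)
      (T.zc * z + T.uc * u + T.wc * w) := by
  let F : ℝ → ℝ := fun z => e.val (T.za * z + T.ua * u + T.wa * w)
    (T.zb * z + T.ub * u + T.wb * w) (T.zc * z + T.uc * u + T.wc * w)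
  have hc : Continuous F := e.continuous_val _ _ _ (by fun_prop) (by fun_prop) (by fun_prop)
  have hp : ∀ z, 0 < z → 0 ≤ F z := by
    intro z hz
    have h0 := ev2_nonneg _ h (div_nonneg hu hz.le) (div_nonneg hw hz.le)
    rw [E.ev2_poly] at h0
    have e' := e.val_smul hd z (T.za + T.ua * (u / z) + T.wa * (w / z))
      (T.zb + T.ub * (u / z) + T.wb * (w / z)) (T.zc + T.uc * (u / z) + T.wc * (w / z))
    have hh : ∀ p q r : ℝ, z * (p + q * (u / z) + r * (w / z)) = p * z + q * u + r * w := by
      intro p q r; field_simp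
    rw [hh, hh, hh] at e'
    show 0 ≤ F z
    simp only [F, e']
    positivity
  rcases hz.eq_or_lt with rfl | hz
  · exact ge_of_tendsto ((hc.tendsto 0).mono_left nhdsWithin_le_nhds)
      (eventually_nhdsWithin_of_forall (s := Set.Ioi (0 : ℝ)) fun z hz => hp z hz)
  · exact hp z hz

end Vale.P154.AF.Hom
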