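import Vale.Agent.P154.AF.HomCert

/-!
# Coefficient certificates by Kronecker substitution

The coefficient test for a substituted expression is replaced by one evaluation over the integers at
powers of two: if the coefficients are small, a nonnegative value whose digits have clear top bits
forces them all to be nonnegative.  All arithmetic is on binary integers.
-/

namespace Vale.P154.AF.Hom

/-- Integer value of a coefficient list. -/
def zev1 : P1 → ℤ → ℤ
  | [], _ => 0
  | a :: p, w => a + w * zev1 p w

/-- Integer value of a bivariate coefficient list. -/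
def zev2 : P2 → ℤ → ℤ → ℤ
  | [], _, _ => 0
  | a :: p, u, w => zev1 a w + u * zev2 p u w

/-- Sum of absolute values. -/
def l1 : P1 → ℤ
  | [] => 0
  | a :: p => |a| + l1 p

/-- Sum of absolute values. -/
def l2 : P2 → ℤ
  | [] => 0
  | a :: p => l1 a + l2 p

theorem cast_zev1 (p : P1) (w : ℤ) : (zev1 p w : ℝ) = ev1 p w := by
  induction p with
  | nil => simp [zev1, ev1]
  | cons a p ih => simp [zev1, ev1, ih]

theorem cast_zev2 (p : P2) (u w : ℤ) : (zev2 p u w : ℝ) = ev2 p u w := by
  induction p with
  | nil => simp [zev2, ev2]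
  | cons a p ih => simp [zev2, ev2, ih, cast_zev1]

theorem l1_nonneg (p : P1) : 0 ≤ l1 p := by
  induction p with
  | nil => simp [l1]
  | cons a p ih => simp only [l1]; positivity

theorem l2_nonneg (p : P2) : 0 ≤ l2 p := by
  induction p with
  | nil => simp [l2]
  | cons a p ih => simp only [l2]; linarith [l1_nonneg a]

theorem l1_add (p q : P1) : l1 (add1 p q) ≤ l1 p + l1 q := by
  induction p generalizing q with
  | nil => simp [add1, l1]
  | cons a p ih =>
    cases q with
    | nil => simp [add1, l1]
    | cons b q => simp only [add1, l1]; linarith [ih q, abs_add_le a b]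

theorem l1_smul (a : ℤ) (q : P1) : l1 (q.map (a * ·)) = |a| * l1 q := by
  induction q with
  | nil => simp [l1]
  | cons b q ih => simp [l1, ih, abs_mul, mul_add]

theorem l1_mul (p q : P1) : l1 (mul1 p q) ≤ l1 p * l1 q := by
  induction p with
  | nil => simp [mul1, l1]
  | cons a p ih =>
    simp only [mul1, l1, add_mul]
    refine (l1_add _ _).trans ?_
    rw [l1_smul]
    simp only [l1, abs_zero, zero_add]
    linarith

theorem l2_add (p q : P2) : l2 (add2 p q) ≤ l2 p + l2 q := by
  induction p generalizing q with
  | nil => simp [add2, l2]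
  | cons a p ih =>
    cases q with
    | nil => simp [add2, l2]
    | cons b q => simp only [add2, l2]; linarith [ih q, l1_add a b]

theorem l2_smul (a : P1) (q : P2) : l2 (q.map (mul1 a)) ≤ l1 a * l2 q := by
  induction q with
  | nil => simp [l2]
  | cons b q ih => simp only [List.map_cons, l2, mul_add]; linarith [l1_mul a b]

theorem l2_mul (p q : P2) : l2 (mul2 p q) ≤ l2 p * l2 q := by
  induction p with
  | nil => simp [mul2, l2]
  | cons a p ih =>
    simp only [mul2, l2, add_mul]
    refine (l2_add _ _).trans ?_
    simp only [l2, l1, zero_add]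
    linarith [l2_smul a q]

theorem l2_pow (p : P2) (n : ℕ) : l2 (pow2 p n) ≤ l2 p ^ n := by
  induction n with
  | zero => simp [pow2, l2, l1]
  | succ n ih =>
    rw [pow_succ']
    exact (l2_mul _ _).trans (mul_le_mul_of_nonneg_left ih (l2_nonneg _))

/-- The integer value of an expression. -/
def E.valZ : E → ℤ → ℤ → ℤ → ℤ
  | .C z, _, _, _ => z
  | .A, a, _, _ => a
  | .B, _, b, _ => b
  | .G, _, _, c => c
  | .add e f, a, b, c => e.valZ a b c + f.valZ a b c
  | .sub e f, a, b, c => e.valZ a b c - f.valZ a b c
  | .mul e f, a, b, c => e.valZ a b c * f.valZ a b c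
  | .pow e n, a, b, c => e.valZ a b c ^ n

theorem E.cast_valZ (e : E) (a b c : ℤ) : (e.valZ a b c : ℝ) = e.val a b c := by
  induction e <;> simp_all [E.valZ, E.val]

/-- A bound for the sum of the absolute values of the coefficients. -/
def E.bound (T : Lin) : E → ℤ
  | .C z => |z|
  | .A => |T.za| + |T.wa| + |T.ua|
  | .B => |T.zb| + |T.wb| + |T.ub|
  | .G => |T.zc| + |T.wc| + |T.uc|
  | .add e f => e.bound T + f.bound T
  | .sub e f => e.bound T + f.bound T
  | .mul e f => e.bound T * f.bound T
  | .pow e n => e.bound T ^ n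

theorem E.l2_le_bound (T : Lin) (e : E) : l2 (e.poly T) ≤ e.bound T := by
  induction e with
  | add e f he hf => exact (l2_add _ _).trans (add_le_add he hf)
  | sub e f he hf =>
    refine (l2_add _ _).trans (add_le_add he ((l2_mul _ _).trans ?_))
    simpa [l2, l1] using hf
  | mul e f he hf =>
    exact (l2_mul _ _).trans (mul_le_mul he hf (l2_nonneg _) ((l2_nonneg _).trans he))
  | pow e n he => exact (l2_pow _ _).trans (pow_le_pow_left₀ (l2_nonneg _) he n)
  | _ => simp [E.poly, E.bound, l2, l1, add_assoc]

/-- At most `n + 1` rows, each of length at most `n + 1`. -/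
def Fits (p : P2) (n : ℕ) : Prop := p.length ≤ n + 1 ∧ ∀ r ∈ p, r.length ≤ n + 1

theorem length_add1 (p q : P1) : (add1 p q).length = max p.length q.length := by
  induction p generalizing q with
  | nil => simp [add1]
  | cons a p ih =>
    cases q with
    | nil => simp [add1]
    | cons b q => simp [add1, ih]

theorem length_mul1 (p q : P1) (hq : 1 ≤ q.length) :
    (mul1 p q).length ≤ p.length + q.length - 1 := by
  induction p with
  | nil => simp [mul1]
  | cons a p ih => simp [mul1, length_add1]; omega

theorem length_mul1' (p q : P1) {m n : ℕ} (hp : p.length ≤ m + 1) (hq : q.length ≤ n + 1) :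
    (mul1 p q).length ≤ m + n + 1 := by
  rcases Nat.eq_zero_or_pos q.length with h | h
  · rw [List.eq_nil_of_length_eq_zero h]
    clear hq h
    induction p generalizing m with
    | nil => simp [mul1]
    | cons a p ih =>
      simp [mul1, length_add1] at hp ⊢
      rcases Nat.eq_zero_or_pos p.length with h | h
      · simp [List.eq_nil_of_length_eq_zero h, mul1]
      · have := ih (m := m - 1) (by omega)
        omega
  · have := length_mul1 p q h
    omega

theorem Fits.mono {p : P2} {m n : ℕ} (h : Fits p m) (hmn : m ≤ n) : Fits p n :=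
  ⟨h.1.trans (by omega), fun r hr => (h.2 r hr).trans (by omega)⟩

theorem Fits.add {p q : P2} {n : ℕ} (hp : Fits p n) (hq : Fits q n) : Fits (add2 p q) n := by
  induction p generalizing q n with
  | nil => simpa [add2] using hq
  | cons a p ih =>
    cases q with
    | nil => simpa [add2] using hp
    | cons b q =>
      have hl : (add2 p q).length = max p.length q.length := by
        clear ih hp hq
        induction p generalizing q with
        | nil => simp [add2]
        | cons x p ih' =>
          cases q with
          | nil => simp [add2]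
          | cons y q => simp [add2, ih']
      refine ⟨?_, fun r hr => ?_⟩
      · have h1 := hp.1; have h2 := hq.1
        simp [add2, hl] at h1 h2 ⊢; omega
      · simp only [add2, List.mem_cons] at hr
        rcases hr with rfl | hr
        · rw [length_add1]
          exact max_le (hp.2 a (by simp)) (hq.2 b (by simp))
        · have hp' : Fits p n := ⟨by have := hp.1; simp at this; omega, fun r h => hp.2 r (by simp [h])⟩
          have hq' : Fits q n := ⟨by have := hq.1; simp at this; omega, fun r h => hq.2 r (by simp [h])⟩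
          exact (ih hp' hq').2 r hr

theorem Fits.mul {p q : P2} {m n : ℕ} (hp : Fits p m) (hq : Fits q n) :
    Fits (mul2 p q) (m + n) := by
  suffices H : ∀ k, p.length ≤ k + 1 → k ≤ m → (mul2 p q).length ≤ k + n + 1 ∧
      ∀ r ∈ mul2 p q, r.length ≤ m + n + 1 from
    ⟨(H m hp.1 le_rfl).1, (H m hp.1 le_rfl).2⟩
  have hrows : ∀ r ∈ p, r.length ≤ m + 1 := hp.2
  clear hp
  induction p with
  | nil => intro k _ _; simp [mul2]
  | cons a p ih =>
    intro k hk hkm
    have ha := hrows a (by simp)
    have hp' := fun r h => hrows r (List.mem_cons_of_mem _ h)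
    have hmap : ∀ r ∈ q.map (mul1 a), r.length ≤ m + n + 1 := by
      intro r hr
      obtain ⟨s, hs, rfl⟩ := List.mem_map.1 hr
      exact length_mul1' a s ha (hq.2 s hs)
    have h2 : ([] :: mul2 p q).length ≤ k + n + 1 ∧ ∀ r ∈ ([] :: mul2 p q), r.length ≤ m + n + 1 := by
      rcases Nat.eq_zero_or_pos p.length with h | h
      · rw [List.eq_nil_of_length_eq_zero h]; simp [mul2]
      · simp at hk
        obtain ⟨e1, e2⟩ := ih hp' (k - 1) (by omega) (by omega)
        refine ⟨by simp; omega, fun r hr => ?_⟩
        rcases List.mem_cons.1 hr with rfl | hr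
        · simp
        · exact e2 r hr
    have h1 : Fits (q.map (mul1 a)) (m + n) := ⟨by simp; have := hq.1; omega, hmap⟩
    have h3 : Fits ([] :: mul2 p q) (m + n) := ⟨h2.1.trans (by omega), h2.2⟩
    refine ⟨?_, (Fits.add h1 h3).2⟩
    have hl : ∀ x y : P2, (add2 x y).length = max x.length y.length := by
      intro x
      induction x with
      | nil => simp [add2]
      | cons c x ih' =>
        intro y
        cases y with
        | nil => simp [add2]
        | cons d y => simp [add2, ih']
    simp only [mul2, hl, List.length_map]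
    exact max_le (by have := hq.1; omega) h2.1

theorem E.fits (T : Lin) : ∀ (e : E) (n : ℕ), e.deg = some n → Fits (e.poly T) n := by
  intro e
  induction e with
  | add e f he hf | sub e f he hf =>
    intro n h
    simp only [E.deg] at h
    cases hm : e.deg <;> cases hn : f.deg <;> simp [hm, hn] at h
    obtain ⟨rfl, rfl⟩ := h
    first
      | exact (he _ hm).add (hf _ hn)
      | refine (he _ hm).add ?_
        have := Fits.mul (p := [[-1]]) (m := 0) ⟨by simp, by simp⟩ (hf _ hn)
        simpa using this
  | mul e f he hf =>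
    intro n h
    simp only [E.deg] at h
    cases hm : e.deg <;> cases hn : f.deg <;> simp [hm, hn] at h
    subst h
    exact (he _ hm).mul (hf _ hn)
  | pow e k he =>
    intro n h
    simp only [E.deg] at h
    cases hm : e.deg <;> simp [hm] at h
    subst h
    simp only [E.poly]
    rename_i m
    have hem := he m hm
    clear hm he
    induction k with
    | zero => simp [pow2, Fits]
    | succ k ih =>
      have := Fits.mul hem ih
      simpa [pow2, Nat.mul_succ, add_comm] using this
  | _ =>
    intro n h
    simp [E.deg] at h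
    subst h
    simp [E.poly, Fits]

/-- The bits `K * i + (K - 1)` for `i < M`. -/
def topMask (K : ℕ) : ℕ → ℕ
  | 0 => 0
  | M + 1 => Nat.shiftLeft 1 (K - 1) ||| Nat.shiftLeft (topMask K M) K

theorem topMask_testBit {K : ℕ} : ∀ {M i : ℕ}, i < M → (topMask K M).testBit (K * i + (K - 1)) := by
  intro M
  induction M with
  | zero => intro i h; omega
  | succ M ih =>
    intro i hi
    simp only [topMask, Nat.testBit_or, Nat.shiftLeft_eq', Nat.testBit_shiftLeft, Bool.or_eq_true]
    rcases i with _ | i
    · left; simp
    · right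
      have : K * (i + 1) + (K - 1) - K = K * i + (K - 1) := by rw [Nat.mul_succ]; omega
      rw [this, ih (by omega)]
      simp [Nat.mul_succ]; omega

/-- Small coefficients are recovered from the value at `2 ^ K`. -/
theorem digits_nonneg {K : ℕ} (hK : 1 ≤ K) : ∀ (p : P1) (N : ℕ), (∀ a ∈ p, |a| < 2 ^ (K - 1)) →
    zev1 p ((2 : ℤ) ^ K) = N → (∀ i < p.length, N.testBit (K * i + (K - 1)) = false) →
    ∀ a ∈ p, 0 ≤ a := by
  intro p
  induction p with
  | nil => simp
  | cons a p ih =>
    intro N hb hN hbit
    obtain ⟨L, rfl⟩ : ∃ L, K = L + 1 := ⟨K - 1, by omega⟩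
    simp only [Nat.add_sub_cancel] at hb hbit
    set R := zev1 p ((2 : ℤ) ^ (L + 1)) with hR
    simp only [zev1, ← hR] at hN
    have ha := abs_lt.1 (hb a (by simp))
    have hlt : N % 2 ^ (L + 1) < 2 ^ L := by
      have h0 := hbit 0 (by simp)
      simp only [Nat.mul_zero, zero_add, Nat.testBit_eq_decide_div_mod_eq, decide_eq_false_iff_not] at h0
      have h1 : N % 2 ^ (L + 1) = N % 2 ^ L + 2 ^ L * (N / 2 ^ L % 2) := by
        rw [pow_succ]; exact Nat.mod_mul
      have h2 : N / 2 ^ L % 2 = 0 := by omega
      rw [h1, h2]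
      simpa using Nat.mod_lt N (by positivity)
    have hlt' : ((N % 2 ^ (L + 1) : ℕ) : ℤ) < 2 ^ L := by exact_mod_cast hlt
    have hsplit : ((N % 2 ^ (L + 1) : ℕ) : ℤ) + 2 ^ (L + 1) * ((N / 2 ^ (L + 1) : ℕ) : ℤ) = N := by
      exact_mod_cast Nat.mod_add_div N (2 ^ (L + 1))
    have hpow : (2 : ℤ) ^ (L + 1) = 2 ^ L * 2 := pow_succ 2 L
    have hd0 : (0 : ℤ) ≤ ((N % 2 ^ (L + 1) : ℕ) : ℤ) := Int.natCast_nonneg _
    set dd : ℤ := ((N % 2 ^ (L + 1) : ℕ) : ℤ)
    set qq : ℤ := ((N / 2 ^ (L + 1) : ℕ) : ℤ) with hq
    have key : (2 : ℤ) ^ (L + 1) * (R - qq) = dd - a := by linarith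
    have hzero : R - qq = 0 := by
      rcases lt_trichotomy (R - qq) 0 with h | h | h
      · nlinarith [pow_pos (show (0 : ℤ) < 2 by norm_num) L]
      · exact h
      · nlinarith [pow_pos (show (0 : ℤ) < 2 by norm_num) L]
    have hRN : R = ((N / 2 ^ (L + 1) : ℕ) : ℤ) := by rw [← hq]; linarith
    have ha0 : 0 ≤ a := by nlinarith
    intro x hx
    rcases List.mem_cons.1 hx with rfl | hx
    · exact ha0
    · refine ih _ (fun b hb' => by simpa using hb b (by simp [hb'])) hRN (fun i hi => ?_) x hx
      have h := hbit (i + 1) (by simp; omega)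
      rw [Nat.testBit_div_two_pow]
      simp only [Nat.add_sub_cancel]
      rw [← h]
      congr 1
      rw [Nat.mul_succ]; omega

/-- The rows padded to length `n + 1` in one list. -/
def flat (n : ℕ) : P2 → P1
  | [] => []
  | r :: p => r ++ List.replicate (n + 1 - r.length) 0 ++ flat n p

theorem zev1_append (p q : P1) (w : ℤ) : zev1 (p ++ q) w = zev1 p w + w ^ p.length * zev1 q w := by
  induction p with
  | nil => simp [zev1]
  | cons a p ih => simp [zev1, ih, pow_succ]; ring

theorem zev1_replicate (k : ℕ) (w : ℤ) : zev1 (List.replicate k 0) w = 0 := by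
  induction k with
  | zero => simp [zev1]
  | succ k ih => simp [List.replicate_succ, zev1, ih]

theorem zev1_flat (n : ℕ) (w : ℤ) : ∀ p : P2, (∀ r ∈ p, r.length ≤ n + 1) →
    zev1 (flat n p) w = zev2 p (w ^ (n + 1)) w ∧ (flat n p).length = (n + 1) * p.length
  | [], _ => by simp [flat, zev1, zev2]
  | r :: p, h => by
    obtain ⟨h1, h2⟩ := zev1_flat n w p fun r hr => h r (by simp [hr])
    have hr := h r (by simp)
    constructor
    · rw [flat, zev1_append, zev1_append, zev1_replicate, h1, List.length_append,
        List.length_replicate, Nat.add_sub_cancel' hr]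
      simp [zev2]
    · simp [flat, h2, Nat.mul_succ]; omega

theorem abs_le_l1 : ∀ (p : P1), ∀ a ∈ p, |a| ≤ l1 p
  | [], a, h => by simp at h
  | b :: p, a, h => by
    rcases List.mem_cons.1 h with rfl | h
    · simp only [l1]; linarith [l1_nonneg p]
    · simp only [l1]; linarith [abs_le_l1 p a h, abs_nonneg b]

theorem abs_le_l2 : ∀ (p : P2), ∀ r ∈ p, l1 r ≤ l2 p
  | [], r, h => by simp at h
  | s :: p, r, h => by
    rcases List.mem_cons.1 h with rfl | h
    · simp only [l2]; linarith [l2_nonneg p]
    · simp only [l2]; linarith [abs_le_l2 p r h, l1_nonneg s]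

/-- The packed test for an expression of degree `n` with digits of `K` bits. -/
def E.kron (T : Lin) (e : E) (n K : ℕ) : Bool :=
  let W : ℤ := ((2 ^ K : ℕ) : ℤ)
  let U : ℤ := ((2 ^ (K * (n + 1)) : ℕ) : ℤ)
  let N := e.valZ (T.za + T.ua * U + T.wa * W) (T.zb + T.ub * U + T.wb * W)
    (T.zc + T.uc * U + T.wc * W)
  decide (1 ≤ K) && decide (e.bound T < ((2 ^ (K - 1) : ℕ) : ℤ)) && decide (0 ≤ N) &&
    Nat.beq (N.toNat &&& topMask K ((n + 1) * (n + 1))) 0

/-- The packed test proves that the coefficients are nonnegative. -/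
theorem E.nn_of_kron {T : Lin} {e : E} {n K : ℕ} (hd : e.deg = some n)
    (h : e.kron T n K = true) : nn (e.poly T) = true := by
  simp only [E.kron, Bool.and_eq_true, decide_eq_true_eq] at h
  obtain ⟨⟨⟨hK, hB⟩, hN⟩, hM⟩ := h
  push_cast at hB hN hM
  set W : ℤ := (2 : ℤ) ^ K
  set U : ℤ := (2 : ℤ) ^ (K * (n + 1)) with hU
  set N := e.valZ (T.za + T.ua * U + T.wa * W) (T.zb + T.ub * U + T.wb * W)
    (T.zc + T.uc * U + T.wc * W) with hNdef
  obtain ⟨hrows, hlen⟩ := e.fits T n hd
  obtain ⟨hflat, hfl⟩ := zev1_flat n W (e.poly T) hlen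
  have hUW : U = W ^ (n + 1) := by rw [hU, pow_mul]
  have hval : zev1 (flat n (e.poly T)) W = (N.toNat : ℤ) := by
    rw [hflat, ← hUW, Int.toNat_of_nonneg hN]
    have : ((zev2 (e.poly T) U W : ℤ) : ℝ) = ((N : ℤ) : ℝ) := by
      rw [cast_zev2, E.ev2_poly, hNdef, E.cast_valZ]
      push_cast
      ring_nf
    exact_mod_cast this
  have hsmall : ∀ a ∈ flat n (e.poly T), |a| < (2 : ℤ) ^ (K - 1) := by
    have aux : ∀ p : P2, ∀ a ∈ flat n p, a = 0 ∨ ∃ r ∈ p, a ∈ r := by
      intro p
      induction p with
      | nil => simp [flat]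
      | cons r p ih =>
        intro a ha
        simp only [flat, List.mem_append, List.mem_replicate] at ha
        rcases ha with (ha | ha) | ha
        · exact Or.inr ⟨r, by simp, ha⟩
        · exact Or.inl ha.2
        · rcases ih a ha with h | ⟨s, hs, has⟩
          · exact Or.inl h
          · exact Or.inr ⟨s, by simp [hs], has⟩
    intro a ha
    rcases aux _ a ha with rfl | ⟨r, hr, har⟩
    · simp
    · exact lt_of_le_of_lt (((abs_le_l1 r a har).trans (abs_le_l2 _ r hr)).trans
        (e.l2_le_bound T)) hB
  have hbits : ∀ i < (flat n (e.poly T)).length, N.toNat.testBit (K * i + (K - 1)) = false := by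
    intro i hi
    have hi' : i < (n + 1) * (n + 1) := by
      rw [hfl] at hi
      exact lt_of_lt_of_le hi (Nat.mul_le_mul_left _ hrows)
    have h0 := congrArg (fun m => m.testBit (K * i + (K - 1))) (Nat.eq_of_beq_eq_true hM)
    simpa [Nat.testBit_and, topMask_testBit hi'] using h0
  have hall := digits_nonneg hK _ _ hsmall hval hbits
  have sub : ∀ p : P2, ∀ r ∈ p, ∀ a ∈ r, a ∈ flat n p := by
    intro p
    induction p with
    | nil => simp
    | cons s p ih =>
      intro r hr a ha
      simp only [flat, List.mem_append]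
      rcases List.mem_cons.1 hr with rfl | hr
      · exact Or.inl (Or.inl ha)
      · exact Or.inr (ih r hr a ha)
  simp only [nn, List.all_eq_true, decide_eq_true_eq]
  exact fun r hr a ha => hall a (sub _ r hr a ha)

end Vale.P154.AF.Hom
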