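import Vale.Agent.P154.AF.Defs
import Vale.Agent.P154.AF.KronCert

/-!
# The lower bound for the Lyapunov function

With `1 + y = (a ^ 6, b ^ 6, c ^ 6)` the bound is a form of degree thirty-six in `a, b, c`, with
nonnegative coefficients on each of five triangles covering `a ≥ b ≥ c ≥ 0`.
-/

noncomputable section

namespace Vale.P154.AF6

open AF.Hom

namespace LyapCert

def A6 : E := .pow .A 6
def B6 : E := .pow .B 6
def G6 : E := .pow .G 6
def S : E := .add (.add A6 B6) G6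
def y (v : E) : E := .sub (.mul (.C 3) v) S
def pE : E := .add (.add (.pow (y A6) 2) (.pow (y B6) 2)) (.pow (y G6) 2)
def tE : E := .add (.add (.pow (y A6) 3) (.pow (y B6) 3)) (.pow (y G6) 3)
def abg : E := .mul (.mul .A .B) .G
def Q2 : E :=
  .add (.add (.add (.add (.add (.mul (.pow .A 2) .B) (.mul (.pow .A 2) .G))
    (.mul (.pow .B 2) .A)) (.mul (.pow .B 2) .G)) (.mul (.pow .G 2) .A)) (.mul (.pow .G 2) .B)
def Q3 : E := .add (.add (.pow .A 3) (.pow .B 3)) (.pow .G 3)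
def linE : E :=
  .add (.add (.mul (.C (-11000)) (.sub (.mul (.C 6) S) (.mul (.C 18) (.pow abg 2))))
    (.mul (.C 15521) (.sub (.mul (.C 6) S) (.mul (.C 3) (.mul abg Q2)))))
    (.mul (.C (-3754)) (.sub (.mul (.C 6) S) (.mul (.C 6) (.mul abg Q3))))
def D : E := .add (.sub (.mul (.C 1000) (.pow S 3)) (.mul (.C 155) tE)) (.mul (.C 70) (.mul pE S))
def num : E :=
  .sub (.sub (.add (.mul (.C 27160) (.mul (.pow pE 2) (.pow S 2)))
    (.mul (.C 24196) (.mul (.mul pE tE) S))) (.mul (.C 512) (.pow pE 3)))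
    (.mul (.C 5850) (.pow tE 2))
def F : E :=
  .sub (.mul (.C 5) (.mul (.mul (.sub (.mul (.C 12) (.mul linE S)) (.mul (.C 4945) pE)) D) S))
    (.mul (.C 36) num)

/-- The image of the octant under the first triangle: `a ≥ b + c`. -/
def T1 : Lin := ⟨2, 1, 1, 1, 1, 0, 1, 0, 0⟩
/-- The second triangle: `2 c ≤ a ≤ b + c`. -/
def T2 : Lin := ⟨2, 1, 2, 2, 1, 1, 1, 0, 1⟩
/-- The third triangle. -/
def T3 : Lin := ⟨3, 2, 2, 2, 2, 1, 2, 1, 1⟩
/-- The fourth triangle. -/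
def T4 : Lin := ⟨3, 2, 3, 3, 2, 2, 2, 1, 2⟩
/-- The fifth triangle. -/
def T5 : Lin := ⟨1, 3, 3, 1, 3, 2, 1, 2, 2⟩

theorem deg : F.deg = some 36 := by decide +kernel
theorem pos1 : nn (F.poly T1) := E.nn_of_kron (n := 36) (K := 420) deg (by decide +kernel)
theorem pos2 : nn (F.poly T2) := E.nn_of_kron (n := 36) (K := 420) deg (by decide +kernel)
theorem pos3 : nn (F.poly T3) := E.nn_of_kron (n := 36) (K := 420) deg (by decide +kernel)
theorem pos4 : nn (F.poly T4) := E.nn_of_kron (n := 36) (K := 420) deg (by decide +kernel)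
theorem pos5 : nn (F.poly T5) := E.nn_of_kron (n := 36) (K := 420) deg (by decide +kernel)

theorem F_nonneg {a b c : ℝ} (hc : 0 ≤ c) (hbc : c ≤ b) (hab : b ≤ a) :
    0 ≤ F.val a b c := by
  rcases le_total (b + c) a with h | h
  · have := F.val_nonneg T1 deg pos1 hc (sub_nonneg.2 hbc) (sub_nonneg.2 h)
    convert this using 2 <;> simp [T1]
    ring
  rcases le_total (2 * c) a with h' | h'
  · have := F.val_nonneg T2 deg pos2 (sub_nonneg.2 h) (sub_nonneg.2 h') (sub_nonneg.2 hab)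
    convert this using 2 <;> simp [T2] <;> ring
  rcases le_total (2 * c - a) (a - b) with h'' | h''
  · have := F.val_nonneg T3 deg pos3 (sub_nonneg.2 h') (sub_nonneg.2 hbc) (sub_nonneg.2 h'')
    convert this using 2 <;> simp [T3] <;> ring
  rcases le_total (2 * c - a) (a - c) with h3 | h3
  · have := F.val_nonneg T4 deg pos4 (sub_nonneg.2 h'') (sub_nonneg.2 h3) (sub_nonneg.2 hab)
    convert this using 2 <;> simp [T4] <;> ring
  · have := F.val_nonneg T5 deg pos5 (sub_nonneg.2 h3) (sub_nonneg.2 hbc) (sub_nonneg.2 hab)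
    convert this using 2 <;> simp [T5] <;> ring

end LyapCert

open LyapCert in
theorem lin_ge {a b c : ℝ} (h : Root a b c) :
    UU (pp a b c) (tt a b c) + 1 / 5000 * pp a b c ^ 2 ≤
      lin (1 - q1 a b c) (1 - q2 a b c) (1 - q3 a b c) := by
  have key : ∀ {a b c : ℝ}, Root a b c → c ≤ b → b ≤ a →
      UU (pp a b c) (tt a b c) + 1 / 5000 * pp a b c ^ 2 ≤
        lin (1 - q1 a b c) (1 - q2 a b c) (1 - q3 a b c) := by
    intro a b c h hbc hab
    have hF := F_nonneg h.hc hbc hab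
    have eA : a ^ 6 = 3 - b ^ 6 - c ^ 6 := by linarith [h.hs]
    have e : F.val a b c = 26244000000 *
        ((lin (1 - q1 a b c) (1 - q2 a b c) (1 - q3 a b c) - aa * pp a b c)
            * (1 - 155 / 1000 * tt a b c + 7 / 100 * pp a b c)
          - (26840 / 1000000 * pp a b c ^ 2 + 24196 / 1000000 * pp a b c * tt a b c
              - 512 / 1000000 * pp a b c ^ 3 - 5850 / 1000000 * tt a b c ^ 2)
          - 320 / 1000000 * pp a b c ^ 2) := by
      simp only [F, num, D, linE, Q3, Q2, abg, tE, pE, y, LyapCert.S, A6, B6, G6, AF.Hom.E.val, lin,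
        aa, q1, q2, q3, pp, tt]
      rw [h.hs]
      push_cast
      ring
    have hy : ∀ x : ℝ, 0 ≤ x → -1 ≤ x - 1 := fun x hx => by linarith
    have h1 : -1 ≤ a ^ 6 - 1 ∧ -1 ≤ b ^ 6 - 1 ∧ -1 ≤ c ^ 6 - 1 :=
      ⟨hy _ (pow_nonneg h.ha 6), hy _ (pow_nonneg h.hb 6), hy _ (pow_nonneg h.hc 6)⟩
    have e3 : tt a b c = 3 * (a ^ 6 - 1) * (b ^ 6 - 1) * (c ^ 6 - 1) := by
      simp only [tt, eA]; ring
    have hcb : c ^ 6 ≤ b ^ 6 := pow_le_pow_left₀ h.hc hbc 6
    have hba : b ^ 6 ≤ a ^ 6 := pow_le_pow_left₀ h.hb hab 6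
    have hc0 : c ^ 6 - 1 ≤ 0 := by linarith [h.hs]
    have ha0 : 0 ≤ a ^ 6 - 1 := by linarith [h.hs]
    have htlo : -(3 / 4) ≤ tt a b c := by
      have h2 : 4 * ((a ^ 6 - 1) * (b ^ 6 - 1)) ≤ 1 := by
        nlinarith [sq_nonneg (a ^ 6 - b ^ 6), h.hs]
      rw [e3]
      rcases le_total 0 (b ^ 6 - 1) with hb0 | hb0
      · nlinarith [mul_nonneg ha0 hb0, mul_le_mul_of_nonneg_left h1.2.2 (mul_nonneg ha0 hb0)]
      · nlinarith [mul_nonneg_of_nonpos_of_nonpos (mul_nonpos_of_nonneg_of_nonpos ha0 hb0) hc0]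
    have hthi : tt a b c ≤ 6 := by
      rw [e3]
      rcases le_total 0 (b ^ 6 - 1) with hb0 | hb0
      · nlinarith [mul_nonpos_of_nonneg_of_nonpos (mul_nonneg ha0 hb0) hc0]
      · have h2 : (b ^ 6 - 1) * (c ^ 6 - 1) ≤ 1 := by nlinarith [h1.2.1, h1.2.2]
        have h3 : a ^ 6 - 1 ≤ 2 := by linarith [h.hs, h1.2.1, h1.2.2]
        nlinarith [mul_le_mul h3 h2 (mul_nonneg_of_nonpos_of_nonpos hb0 hc0) (by norm_num : (0 : ℝ) ≤ 2)]
    have hp0 : 0 ≤ pp a b c := by unfold pp; positivity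
    have hp6 : pp a b c ≤ 6 := by
      simp only [pp]
      rw [eA]
      nlinarith [h1.1, h1.2.1, h1.2.2, mul_nonneg (pow_nonneg h.hb 6) (pow_nonneg h.hc 6),
        mul_nonneg (pow_nonneg h.ha 6) (add_nonneg (pow_nonneg h.hb 6) (pow_nonneg h.hc 6))]
    have hd : 0 < 1 - 155 / 1000 * tt a b c + 7 / 100 * pp a b c := by linarith
    have hd1 : 1 - 155 / 1000 * tt a b c + 7 / 100 * pp a b c ≤ 16 / 10 := by linarith
    unfold UU
    rw [show ∀ x y z : ℝ, x + y + z = (x + z) + y from fun x y z => by ring, ← le_sub_iff_add_le',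
      div_le_iff₀ hd]
    nlinarith [sq_nonneg (pp a b c), mul_le_mul_of_nonneg_left hd1 (sq_nonneg (pp a b c))]
  have hsymm : ∀ a b c : ℝ, q1 b a c = q1 a b c ∧ q2 b a c = q2 a b c ∧ q3 b a c = q3 a b c ∧
      q1 a c b = q1 a b c ∧ q2 a c b = q2 a b c ∧ q3 a c b = q3 a b c ∧
      pp b a c = pp a b c ∧ tt b a c = tt a b c ∧ pp a c b = pp a b c ∧ tt a c b = tt a b c := by
    intro a b c
    refine ⟨?_, ?_, ?_, ?_, ?_, ?_, ?_, ?_, ?_, ?_⟩ <;> simp only [q1, q2, q3, pp, tt] <;> ring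
  have r12 : ∀ {a b c : ℝ}, Root a b c → Root b a c := fun h =>
    ⟨h.hb, h.ha, h.hc, by linarith [h.hs]⟩
  have r23 : ∀ {a b c : ℝ}, Root a b c → Root a c b := fun h =>
    ⟨h.ha, h.hc, h.hb, by linarith [h.hs]⟩
  let P : ℝ → ℝ → ℝ → Prop := fun a b c => UU (pp a b c) (tt a b c) + 1 / 5000 * pp a b c ^ 2 ≤
    lin (1 - q1 a b c) (1 - q2 a b c) (1 - q3 a b c)
  have s12 : ∀ {a b c}, P b a c → P a b c := by
    intro a b c hp
    obtain ⟨e1, e2, e3, -, -, -, e4, e5, -, -⟩ := hsymm a b c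
    simpa only [P, e1, e2, e3, e4, e5] using hp
  have s23 : ∀ {a b c}, P a c b → P a b c := by
    intro a b c hp
    obtain ⟨-, -, -, e1, e2, e3, -, -, e4, e5⟩ := hsymm a b c
    simpa only [P, e1, e2, e3, e4, e5] using hp
  show P a b c
  rcases le_total b a with h1 | h1 <;> rcases le_total c b with h2 | h2 <;>
    rcases le_total c a with h3 | h3
  · exact key h h2 h1
  · exact key h h2 h1
  · exact s23 (key (r23 h) h2 h3)
  · exact s23 (s12 (key (r12 (r23 h)) h1 h3))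
  · exact s12 (key (r12 h) h3 h1)
  · exact s12 (s23 (key (r23 (r12 h)) h3 h2))
  · exact s12 (s23 (s12 (key (r12 (r23 (r12 h))) h1 h2)))
  · exact s12 (s23 (s12 (key (r12 (r23 (r12 h))) h1 h2)))

end Vale.P154.AF6
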