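import Vale.Agent.P154.AF.NDef

/-!
# The nonlinear part is below the polynomial bound

A second-order expansion around `x2`, alternating truncations of `(1 - h) ^ i`, and the
hockey-stick identity.
-/

noncomputable section

namespace Vale.P154.AF6

open Finset

theorem geom_one_sub (h : ℝ) : ∀ n : ℕ, 1 - (1 - h) ^ n = h * ∑ i ∈ range n, (1 - h) ^ i
  | 0 => by simp
  | n + 1 => by rw [sum_range_succ, mul_add, ← geom_one_sub h n]; ring

theorem second_geom (h : ℝ) : ∀ n : ℕ, (1 - h) ^ n - 1 + n * h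
    = h ^ 2 * ∑ i ∈ range n, ((n : ℝ) - 1 - i) * (1 - h) ^ i
  | 0 => by simp
  | n + 1 => by
      have e : ∑ i ∈ range (n + 1), (((n + 1 : ℕ) : ℝ) - 1 - i) * (1 - h) ^ i
          = (∑ i ∈ range n, ((n : ℝ) - 1 - i) * (1 - h) ^ i) + ∑ i ∈ range n, (1 - h) ^ i := by
        rw [sum_range_succ, ← sum_add_distrib]
        push_cast
        have : ∀ i ∈ range n, ((n : ℝ) + 1 - 1 - i) * (1 - h) ^ i
            = ((n : ℝ) - 1 - i) * (1 - h) ^ i + (1 - h) ^ i := fun i _ => by ring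
        rw [sum_congr rfl this]; ring
      rw [e, mul_add, ← second_geom h n, pow_two h, mul_assoc, ← geom_one_sub h n]
      push_cast; ring

theorem sum_choose (j : ℕ) : ∀ n : ℕ, ∑ i ∈ range n, (i.choose j : ℝ) = (n.choose (j + 1) : ℝ)
  | 0 => by simp
  | n + 1 => by rw [sum_range_succ, sum_choose j n, Nat.choose_succ_succ' n j]; push_cast; ring

theorem sum_weight_choose (j : ℕ) : ∀ n : ℕ,
    ∑ i ∈ range n, ((n : ℝ) - 1 - i) * (i.choose j : ℝ) = (n.choose (j + 2) : ℝ)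
  | 0 => by simp
  | n + 1 => by
      rw [sum_range_succ, Nat.choose_succ_succ' n (j + 1)]
      push_cast
      rw [← sum_choose j n, ← sum_weight_choose j n, ← sum_add_distrib]
      have : ∀ i ∈ range n, ((n : ℝ) + 1 - 1 - i) * (i.choose j : ℝ)
          = (i.choose j : ℝ) + ((n : ℝ) - 1 - i) * (i.choose j : ℝ) := fun i _ => by ring
      rw [sum_congr rfl this]; ring

theorem choose_step (i j : ℕ) :
    ((i + 1).choose (j + 1) : ℝ) = (i.choose j : ℝ) + (i.choose (j + 1) : ℝ) := by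
  rw [Nat.choose_succ_succ' i j]; push_cast; ring

theorem pow_lower {h : ℝ} (h0 : 0 ≤ h) (h1 : h ≤ 1) : ∀ i : ℕ,
    1 - (i.choose 1 : ℝ) * h + (i.choose 2 : ℝ) * h ^ 2 - (i.choose 3 : ℝ) * h ^ 3 ≤ (1 - h) ^ i
  | 0 => by simp
  | i + 1 => by
      have ih := mul_le_mul_of_nonneg_right (pow_lower h0 h1 i) (sub_nonneg.2 h1)
      rw [pow_succ (1 - h) i, choose_step i 0, choose_step i 1, choose_step i 2]
      have : 0 ≤ (i.choose 3 : ℝ) * h ^ 4 := by positivity
      simp only [Nat.choose_zero_right, Nat.cast_one] at *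
      linarith

theorem pow_upper {h : ℝ} (h0 : 0 ≤ h) (h1 : h ≤ 1) : ∀ i : ℕ,
    (1 - h) ^ i ≤ 1 - (i.choose 1 : ℝ) * h + (i.choose 2 : ℝ) * h ^ 2 - (i.choose 3 : ℝ) * h ^ 3
      + (i.choose 4 : ℝ) * h ^ 4
  | 0 => by simp
  | i + 1 => by
      have ih := mul_le_mul_of_nonneg_right (pow_upper h0 h1 i) (sub_nonneg.2 h1)
      rw [pow_succ (1 - h) i, choose_step i 0, choose_step i 1, choose_step i 2, choose_step i 3]
      have : 0 ≤ (i.choose 4 : ℝ) * h ^ 5 := by positivity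
      simp only [Nat.choose_zero_right, Nat.cast_one] at *
      linarith

theorem deriv_lower {h : ℝ} (h0 : 0 ≤ h) (h1 : h ≤ 1) (i : ℕ) :
    (i.choose 1 : ℝ) - 2 * (i.choose 2 : ℝ) * h + 3 * (i.choose 3 : ℝ) * h ^ 2
      - 4 * (i.choose 4 : ℝ) * h ^ 3 ≤ (i : ℝ) * (1 - h) ^ (i - 1) := by
  cases i with
  | zero => simp
  | succ k =>
      have ih := mul_le_mul_of_nonneg_left (pow_lower h0 h1 k)
        (by positivity : (0 : ℝ) ≤ (k + 1 : ℕ))
      have c : ∀ j : ℕ, ((k + 1 : ℕ) : ℝ) * (k.choose j : ℝ)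
          = ((k + 1).choose (j + 1) : ℝ) * ((j : ℝ) + 1) := fun j => by
        exact_mod_cast Nat.add_one_mul_choose_eq k j
      have c1 := c 1
      have c2 := c 2
      have c3 := c 3
      simp only [Nat.choose_one_right, Nat.add_sub_cancel, Nat.reduceAdd, Nat.cast_one, Nat.cast_ofNat] at c1 c2 c3 ⊢
      simp only [Nat.choose_one_right] at ih
      push_cast at *
      linear_combination ih + h * c1 - h ^ 2 * c2 + h ^ 3 * c3

theorem pow_second {f g : ℝ} (f0 : 0 ≤ f) (f1 : f ≤ 1) (g0 : 0 ≤ g) (g1 : g ≤ 1) : ∀ i : ℕ,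
    g ^ i ≤ f ^ i + (i : ℝ) * f ^ (i - 1) * (g - f) + (i.choose 2 : ℝ) * (g - f) ^ 2
  | 0 => by simp
  | i + 1 => by
      have ih := mul_le_mul_of_nonneg_left (pow_second f0 f1 g0 g1 i) g0
      have hf : (i : ℝ) * f ^ (i - 1) * f = (i : ℝ) * f ^ i := by
        cases i with
        | zero => simp
        | succ k => simp [pow_succ]; ring
      have a : (i : ℝ) * f ^ (i - 1) ≤ i :=
        mul_le_of_le_one_right (Nat.cast_nonneg i) (pow_le_one₀ f0 f1)
      have b : g * (i.choose 2 : ℝ) ≤ (i.choose 2 : ℝ) :=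
        mul_le_of_le_one_left (Nat.cast_nonneg _) g1
      have m := mul_le_mul_of_nonneg_right (add_le_add a b) (sq_nonneg (g - f))
      rw [choose_step i 1, Nat.choose_one_right, Nat.add_sub_cancel, pow_succ' g]
      push_cast
      linear_combination ih + m + (g - f) * hf

theorem choose_mul_pow {n : ℕ} (hn : 0 < n) : ∀ k : ℕ,
    (n.choose k : ℝ) * (1 / (n : ℝ)) ^ k * (k.factorial : ℝ) = pf (1 / n) k
  | 0 => by simp [pf]
  | k + 1 => by
      have hn' : (n : ℝ) ≠ 0 := by exact_mod_cast hn.ne'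
      have key : (n.choose (k + 1) : ℝ) * ((k : ℝ) + 1) = (n.choose k : ℝ) * ((n : ℝ) - k) := by
        rcases le_or_gt k n with h | h
        · have := congrArg (Nat.cast : ℕ → ℝ) (Nat.choose_succ_right_eq n k)
          push_cast [h] at this
          linarith
        · simp [Nat.choose_eq_zero_of_lt h, Nat.choose_eq_zero_of_lt (Nat.lt_succ_of_lt h)]
      rw [pf, ← choose_mul_pow hn k, Nat.factorial_succ]
      push_cast
      rw [show (1 : ℝ) - (k : ℝ) * (1 / n) = ((n : ℝ) - k) / n by field_simp, pow_succ]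
      field_simp
      linear_combination key

theorem regN_le_nb {d : ℕ} (hd : 5 ≤ d) {x1 x2 x3 : ℝ} (h3 : 0 ≤ x3) (h32 : x3 ≤ x2)
    (h21 : x2 ≤ x1) (h1 : x1 ≤ d) (hk : 0 ≤ kf x1 x2 x3) :
    regN d x1 x2 x3 ≤ max (nb true (1 / d) x1 x2 x3) (nb false (1 / d) x1 x2 x3) := by
  have hn : 0 < d := by omega
  have hd0 : (0 : ℝ) < d := by exact_mod_cast hn
  set e : ℝ := 1 / d with he
  have e0 : 0 ≤ e := by positivity
  have hx : ∀ x : ℝ, 0 ≤ x → x ≤ d → 0 ≤ e * x ∧ e * x ≤ 1 := fun x a b => by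
    refine ⟨mul_nonneg e0 a, ?_⟩
    rw [he, div_mul_eq_mul_div, one_mul, div_le_one hd0]; exact b
  obtain ⟨u1, v1⟩ := hx x1 (by linarith) h1
  obtain ⟨u2, v2⟩ := hx x2 (by linarith) (by linarith)
  obtain ⟨u3, v3⟩ := hx x3 h3 (by linarith)
  set w : ℕ → ℝ := fun i => (d : ℝ) - 1 - i with hw
  have w0 : ∀ i ∈ range d, 0 ≤ w i := fun i hi => by
    have : (i : ℝ) + 1 ≤ d := by exact_mod_cast Finset.mem_range.1 hi
    simp only [hw]; linarith
  set f := 1 - e * x2 with hf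
  set A := ∑ i ∈ range d, w i * f ^ i with hA
  set B := ∑ i ∈ range d, w i * ((i : ℝ) * f ^ (i - 1)) with hB
  have cN : ∀ j, ∑ i ∈ range d, w i * (i.choose j : ℝ) = (d.choose (j + 2) : ℝ) := fun j =>
    sum_weight_choose j d
  have exact1 : ∀ x : ℝ, 1 - (1 - x / d) ^ d - x
      = -((e * x) ^ 2 * ∑ i ∈ range d, w i * (1 - e * x) ^ i) := fun x => by
    have h := second_geom (e * x) d
    have hc : e * x = x / d := by rw [he]; ring
    rw [hc] at h ⊢
    simp only [hw]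
    rw [← h]; field_simp; ring
  have second : ∀ x : ℝ, 0 ≤ e * x → e * x ≤ 1 →
      ∑ i ∈ range d, w i * (1 - e * x) ^ i
        ≤ A + B * (e * (x2 - x)) + (d.choose 4 : ℝ) * (e * (x2 - x)) ^ 2 := fun x a b => by
    rw [← cN 2, hA, hB, sum_mul, sum_mul, ← sum_add_distrib, ← sum_add_distrib]
    refine sum_le_sum fun i hi => ?_
    have h := mul_le_mul_of_nonneg_left (pow_second (f := f) (g := 1 - e * x)
      (by linarith) (by linarith) (by linarith) (by linarith) i) (w0 i hi)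
    rw [show 1 - e * x - f = e * (x2 - x) by rw [hf]; ring] at h
    linear_combination h
  have Alo : (d.choose 2 : ℝ) - (d.choose 3 : ℝ) * (e * x2) + (d.choose 4 : ℝ) * (e * x2) ^ 2
      - (d.choose 5 : ℝ) * (e * x2) ^ 3 ≤ A := by
    rw [← cN 0, ← cN 1, ← cN 2, ← cN 3, hA, sum_mul, sum_mul, sum_mul, ← sum_sub_distrib,
      ← sum_add_distrib, ← sum_sub_distrib]
    refine sum_le_sum fun i hi => ?_
    have h := mul_le_mul_of_nonneg_left (pow_lower u2 v2 i) (w0 i hi)
    simp only [Nat.choose_zero_right, Nat.cast_one] at *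
    linear_combination h
  have Aup : A ≤ (d.choose 2 : ℝ) - (d.choose 3 : ℝ) * (e * x2)
      + (d.choose 4 : ℝ) * (e * x2) ^ 2 - (d.choose 5 : ℝ) * (e * x2) ^ 3
      + (d.choose 6 : ℝ) * (e * x2) ^ 4 := by
    rw [← cN 0, ← cN 1, ← cN 2, ← cN 3, ← cN 4, hA, sum_mul, sum_mul, sum_mul, sum_mul,
      ← sum_sub_distrib, ← sum_add_distrib, ← sum_sub_distrib, ← sum_add_distrib]
    refine sum_le_sum fun i hi => ?_
    have h := mul_le_mul_of_nonneg_left (pow_upper u2 v2 i) (w0 i hi)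
    simp only [Nat.choose_zero_right, Nat.cast_one] at *
    linear_combination h
  have Blo : (d.choose 3 : ℝ) - 2 * (d.choose 4 : ℝ) * (e * x2)
      + 3 * (d.choose 5 : ℝ) * (e * x2) ^ 2 - 4 * (d.choose 6 : ℝ) * (e * x2) ^ 3 ≤ B := by
    rw [← cN 1, ← cN 2, ← cN 3, ← cN 4, hB, mul_sum, mul_sum, mul_sum, sum_mul, sum_mul, sum_mul,
      ← sum_sub_distrib, ← sum_add_distrib, ← sum_sub_distrib]
    refine sum_le_sum fun i hi => ?_
    have h := mul_le_mul_of_nonneg_left (deriv_lower u2 v2 i) (w0 i hi)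
    linear_combination h
  have p2 := choose_mul_pow hn 2
  have p3 := choose_mul_pow hn 3
  have p4 := choose_mul_pow hn 4
  have p5 := choose_mul_pow hn 5
  have p6 := choose_mul_pow hn 6
  simp only [← he, Nat.factorial] at p2 p3 p4 p5 p6
  push_cast at p2 p3 p4 p5 p6
  set C := (d.choose 4 : ℝ)
  -- regN is at most the expansion
  have hreg : regN d x1 x2 x3 ≤ e ^ 2 * A * qf x1 x2 x3 - e ^ 3 * B * kf x1 x2 x3
      + e ^ 4 * C * rf x1 x2 x3 := by
    rw [regN, lin, exact1 x1, exact1 x2, exact1 x3]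
    have s1 := mul_le_mul_of_nonneg_left (second x1 u1 v1)
      (by positivity : (0 : ℝ) ≤ 110 * (e * x1) ^ 2)
    have s3 := mul_le_mul_of_nonneg_left (second x3 u3 v3)
      (by positivity : (0 : ℝ) ≤ 3754 / 100 * (e * x3) ^ 2)
    simp only [qf, kf, rf]
    linear_combination s1 + s3
  have hb : a1 e x2 ≤ e ^ 3 * B := by
    have h := mul_le_mul_of_nonneg_left Blo (by positivity : (0 : ℝ) ≤ e ^ 3)
    refine le_trans (le_of_eq ?_) h
    simp only [a1, ← p3, ← p4, ← p5, ← p6]; ring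
  have hc : pf e 4 / 24 = e ^ 4 * C := by rw [← p4]; ring
  have hup : e ^ 2 * A ≤ a0 true e x2 := by
    have h := mul_le_mul_of_nonneg_left Aup (by positivity : (0 : ℝ) ≤ e ^ 2)
    refine le_trans h (le_of_eq ?_)
    simp only [a0, ← p2, ← p3, ← p4, ← p5, ← p6, if_true]; ring
  have hlo : a0 false e x2 ≤ e ^ 2 * A := by
    have h := mul_le_mul_of_nonneg_left Alo (by positivity : (0 : ℝ) ≤ e ^ 2)
    refine le_trans (le_of_eq ?_) h
    simp only [a0, ← p2, ← p3, ← p4, ← p5, Bool.false_eq_true, if_false]; ring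
  have hk' := mul_le_mul_of_nonneg_right hb hk
  rcases le_total 0 (qf x1 x2 x3) with hq | hq
  · refine le_trans ?_ (le_max_left _ _)
    have := mul_le_mul_of_nonneg_right hup hq
    rw [nb, hc]; linarith
  · refine le_trans ?_ (le_max_right _ _)
    have := mul_le_mul_of_nonpos_right hlo hq
    rw [nb, hc]; linarith

end Vale.P154.AF6
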