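import Vale.Agent.P154.AF.NCert
import Vale.Agent.P154.AF.NBound

/-!
# The nonlinear part is below the majorant
-/

noncomputable section

namespace Vale.P154.AF6

open Filter Topology

/-- The certified form is the difference of the two sides. -/
theorem fp_eq (up : Bool) (r s x e : ℝ) :
    NC.fp NC.rops up 1 r s x 1 e 1 * x ^ 2 = 72000000 *
      (kk * ee x (r * x) (s * x) ^ 2 - nb up e x (r * x) (s * x) * (2 + 5 * x)) := by
  cases up <;>
    simp only [NC.fp, NC.rops, NC.sm, NC.pw, nb, a0, a1, qf, kf, rf, pf, ee, kk,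
      Bool.false_eq_true, ↓reduceIte] <;> push_cast <;> ring

theorem nb_le_MM (up : Bool) {e x1 x2 x3 : ℝ} (h : Cone x1 x2 x3) (hpos : 0 < x1) (hx : x1 ≤ 2)
    (he0 : 0 ≤ e) (he : e ≤ 1 / 5) : nb up e x1 x2 x3 ≤ MM kk x1 x2 x3 := by
  have hc : Cone 1 (x2 / x1) (x3 / x1) := by
    have d : ∀ {a : ℝ}, 0 ≤ a → 0 ≤ a / x1 := fun ha => div_nonneg ha hpos.le
    exact ⟨zero_le_one, le_of_le_of_eq (d h.h1) (by field_simp), le_of_le_of_eq (d h.h2)
      (by field_simp), le_of_le_of_eq (d h.h3) (by field_simp), le_of_le_of_eq (d h.h4)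
      (by field_simp), le_of_le_of_eq (d h.h5) (by field_simp), le_of_le_of_eq (d h.h6)
      (by field_simp)⟩
  have hfp := mul_nonneg (NC.cert up hc hpos.le hx he0 he) (sq_nonneg x1)
  rw [fp_eq, div_mul_cancel₀ _ hpos.ne', div_mul_cancel₀ _ hpos.ne'] at hfp
  rw [MM, le_div_iff₀ (by linarith)]
  linarith

theorem Cone.order {x1 x2 x3 : ℝ} (h : Cone x1 x2 x3) :
    0 ≤ x3 ∧ x3 ≤ x2 ∧ x2 ≤ x1 ∧ 0 ≤ kf x1 x2 x3 := by
  obtain ⟨h0, h1, h2, h3, h4, h5, h6⟩ := h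
  have b3 : 0 ≤ x3 := by linarith
  have b32 : x3 ≤ x2 := by linarith
  have b21 : x2 ≤ x1 := by linarith
  refine ⟨b3, b32, b21, ?_⟩
  have a : x2 - x3 ≤ 3 * (x1 - x2) := by linarith
  have c : x3 ≤ 4 / 5 * x1 := by linarith
  have t1 : x3 ^ 2 ≤ 16 / 25 * x1 ^ 2 := by
    have := pow_le_pow_left₀ b3 c 2
    linarith
  have t2 : x3 ^ 2 * (x2 - x3) ≤ 16 / 25 * x1 ^ 2 * (3 * (x1 - x2)) :=
    mul_le_mul t1 a (by linarith) (by positivity)
  have : 0 ≤ x1 ^ 2 * (x1 - x2) := mul_nonneg (sq_nonneg _) (by linarith)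
  simp only [kf]
  linarith

/-- C4 for regular trees. -/
theorem regN_le {d : ℕ} (hd : 5 ≤ d) {x1 x2 x3 : ℝ} (h : Cone x1 x2 x3) (hx : x1 ≤ 2) :
    regN d x1 x2 x3 ≤ MM kk x1 x2 x3 := by
  obtain ⟨b3, b32, b21, hk⟩ := h.order
  rcases h.h0.eq_or_lt with e0 | hpos
  · obtain rfl : x3 = 0 := by linarith
    obtain rfl : x2 = 0 := by linarith
    subst e0
    simp [regN, MM, lin, ee]
  · have hd' : (5 : ℝ) ≤ d := by exact_mod_cast hd
    have he0 : (0 : ℝ) ≤ 1 / d := by positivity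
    have he : 1 / (d : ℝ) ≤ 1 / 5 := one_div_le_one_div_of_le (by norm_num) hd'
    exact (regN_le_nb hd b3 b32 b21 (by linarith) hk).trans
      (max_le (nb_le_MM true h hpos hx he0 he) (nb_le_MM false h hpos hx he0 he))

/-- C4 for Poisson trees. -/
theorem poisN_le {x1 x2 x3 : ℝ} (h : Cone x1 x2 x3) (hx : x1 ≤ 2) :
    poisN x1 x2 x3 ≤ MM kk x1 x2 x3 := by
  have hl : ∀ x : ℝ, Tendsto (fun d : ℕ => (1 - x / (d : ℝ)) ^ d) atTop (𝓝 (Real.exp (-x))) := by
    intro x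
    refine (Real.tendsto_one_add_div_pow_exp (-x)).congr fun d => ?_
    rw [neg_div, ← sub_eq_add_neg]
  have t : Tendsto (fun d : ℕ => regN d x1 x2 x3) atTop (𝓝 (poisN x1 x2 x3)) := by
    simp only [regN, poisN, lin]
    exact ((((hl x1).const_sub 1).sub_const x1).const_mul _ |>.add
      ((((hl x2).const_sub 1).sub_const x2).const_mul _)).sub
      ((((hl x3).const_sub 1).sub_const x3).const_mul _)
  refine le_of_tendsto t ?_
  filter_upwards [eventually_ge_atTop 5] with d hd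
  exact regN_le hd h hx

end Vale.P154.AF6
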