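import Vale.Agent.P154.AF.SmallCert

/-!
# Bounds for the functionals at small points
-/

noncomputable section

namespace Vale.P154.AF6

open AF.Hom SmallCert

variable {a b c : ℝ}

namespace SmallCert

theorem sE_val (h : Small a b c) : sE.val a b c = 3 := by simpa [sE] using h.hs

theorem pE_val (h : Small a b c) : pE.val a b c = 9 * pp a b c := by
  simp only [pE, yE, E.val, sE_val h, pp]; push_cast; ring

theorem tE_val (h : Small a b c) : tE.val a b c = 27 * tt a b c := by
  simp only [tE, yE, E.val, sE_val h, tt]; push_cast; ring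

theorem x1E_val (h : Small a b c) : x1E.val a b c = 6 * (1 - q1 a b c) := by
  simp only [x1E, abg, E.val, sE_val h, q1]; push_cast; ring

theorem x2E_val (h : Small a b c) : x2E.val a b c = 6 * (1 - q2 a b c) := by
  simp only [x2E, abg, E.val, sE_val h, q2]; push_cast; ring

theorem x3E_val (h : Small a b c) : x3E.val a b c = 6 * (1 - q3 a b c) := by
  simp only [x3E, abg, E.val, sE_val h, q3]; push_cast; ring

theorem lE_val (h : Small a b c) (l1 l2 l3 : ℤ) : (lE l1 l2 l3).val a b c =
    6 * (l1 * (1 - q1 a b c) + l2 * (1 - q2 a b c) + l3 * (1 - q3 a b c)) := by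
  simp only [lE, E.val, x1E_val h, x2E_val h, x3E_val h]; ring

end SmallCert

/-- The Lyapunov function at a small point. -/
theorem lin_le (h : Small a b c) :
    lin (1 - q1 a b c) (1 - q2 a b c) (1 - q3 a b c) ≤ gUp (pp a b c) (tt a b c) := by
  have hg := g_nonneg h
  have hd := d1_nonneg h
  simp only [gE, g1E, ppE, d1E, g2E, E.val, lE_val h, sE_val h, pE_val h, tE_val h] at hg hd
  push_cast at hg hd
  have ht : 0 < 1 - 7 / 10 * tt a b c := by linarith
  unfold gUp lin aa
  rw [← sub_le_iff_le_add', le_div_iff₀ ht]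
  linarith

/-- The linear form of the majorant at a small point. -/
theorem ee_le (h : Small a b c) :
    ee (1 - q1 a b c) (1 - q2 a b c) (1 - q3 a b c) ≤ eUp (pp a b c) (tt a b c) := by
  have he := e_nonneg h
  have hd := d2_nonneg h
  simp only [eE, e1E, ppE, ssE, psE, d2E, e2E, E.val, lE_val h, sE_val h, pE_val h, tE_val h] at he hd
  push_cast at he hd
  have ht : 0 < 1 + 65 / 100 * tt a b c - 2 / 10 * pp a b c := by linarith
  unfold eUp ee
  rw [← sub_le_iff_le_add', le_div_iff₀ ht]
  linarith

/-- The first functional at a small point. -/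
theorem q1_le (h : Small a b c) : xLo (pp a b c) (tt a b c) ≤ 1 - q1 a b c := by
  have hx := x_nonneg h
  have hd := d3_nonneg h
  simp only [xE, x0E, ppE, ssE, psE, d3E, x2dE, E.val, x1E_val h, sE_val h, pE_val h, tE_val h] at hx hd
  push_cast at hx hd
  have ht : 0 < 1 + 95 / 100 * tt a b c := by linarith
  unfold xLo
  rw [← le_sub_iff_add_le', div_le_iff₀ ht]
  linarith

/-- A crude upper bound for the first functional. -/
theorem q1_ge (h : Small a b c) : 1 - q1 a b c ≤ 1 / 3 * pp a b c := by
  have hm := m_nonneg h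
  simp only [mE, E.val, x1E_val h, sE_val h, pE_val h] at hm
  push_cast at hm
  linarith

theorem ee_nonneg (h : Small a b c) : 0 ≤ ee (1 - q1 a b c) (1 - q2 a b c) (1 - q3 a b c) := by
  have he := SmallCert.ee_nonneg h
  rw [lE_val h] at he
  push_cast at he
  unfold ee
  linarith

/-- The cone containing the vectors of a small point. -/
theorem cone (h : Small a b c) : Cone (1 - q1 a b c) (1 - q2 a b c) (1 - q3 a b c) := by
  have c0 := h0_nonneg h
  have c1 := h1_nonneg h
  have c2 := h2_nonneg h
  have c3 := h3_nonneg h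
  have c4 := h4_nonneg h
  have c5 := h5_nonneg h
  have c6 := h6_nonneg h
  rw [lE_val h] at c0 c1 c2 c3 c4 c5 c6
  push_cast at c0 c1 c2 c3 c4 c5 c6
  exact ⟨by linarith, by linarith, by linarith, by linarith, by linarith, by linarith,
    by linarith⟩

end Vale.P154.AF6
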