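import Vale.Agent.P154.AF.Lyap
import Vale.Agent.P154.AF.Small
import Vale.Agent.P154.AF.Final
import Vale.Agent.P154.AF.NFinal
import Vale.Agent.P154.Mult
import Vale.Agent.P154.Q3Critical

/-!
# Three-state antiferromagnet: the threshold is exact for `d ≥ 5`

The Lyapunov function `GG` obeys a closed recursion, its nonlinear part is below the convex
majorant `MM`, and the resulting one-vector inequality gives nonreconstruction at the critical
channels `-1 / √d`, `d ≥ 5`.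
-/

noncomputable section

namespace Vale.P154.AF6

open Finset Filter Topology

/-- The three exponent vectors. -/
def expo (j i : Fin 3) : ℝ :=
  (![![2, 2, 2], ![3, 2, 1], ![4, 1, 1]] : Fin 3 → Fin 3 → ℕ) j i / 6

theorem expo_ok (j : Fin 3) : Expo (expo j) := by
  refine ⟨fun i => by unfold expo; positivity, ?_⟩
  fin_cases j <;> simp [expo, Fin.sum_univ_three] <;> norm_num

/-- The coefficients of `lin`. -/
def coef : Fin 3 → ℝ := ![-110, 15521 / 100, -3754 / 100]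

/-- The three polynomials. -/
def qq : Fin 3 → ℝ → ℝ → ℝ → ℝ := ![q1, q2, q3]

theorem sum_coef (f : Fin 3 → ℝ) : ∑ j, coef j * f j = lin (f 0) (f 1) (f 2) := by
  simp [Fin.sum_univ_three, coef, lin]; ring

theorem sum_perm3 (F : Equiv.Perm (Fin 3) → ℝ) :
    ∑ π, F π = F 1 + F (Equiv.swap 0 1) + F (Equiv.swap 0 2) + F (Equiv.swap 1 2)
      + F (Equiv.swap 0 1 * Equiv.swap 1 2) + F (Equiv.swap 1 2 * Equiv.swap 0 1) := by
  have h : (Finset.univ : Finset (Equiv.Perm (Fin 3))) = {1, Equiv.swap 0 1, Equiv.swap 0 2,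
      Equiv.swap 1 2, Equiv.swap 0 1 * Equiv.swap 1 2, Equiv.swap 1 2 * Equiv.swap 0 1} := by
    decide
  rw [h, Finset.sum_insert (by decide), Finset.sum_insert (by decide),
    Finset.sum_insert (by decide), Finset.sum_insert (by decide), Finset.sum_insert (by decide),
    Finset.sum_singleton]
  ring

theorem rpow_sixth {x : ℝ} (hx : 0 ≤ x) (k : ℕ) : x ^ ((k : ℝ) / 6) = s6 x ^ k := by
  rw [s6, ← Real.rpow_natCast (x ^ ((1 : ℝ) / 6)) k, ← Real.rpow_mul hx]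
  congr 1; ring

theorem s6_nonneg {x : ℝ} (hx : 0 ≤ x) : 0 ≤ s6 x := Real.rpow_nonneg hx _

theorem s6_pow {x : ℝ} (hx : 0 ≤ x) : s6 x ^ 6 = x := by
  rw [← rpow_sixth hx 6]; norm_num

/-- `hel` at the three exponent vectors is `q` at the sixth roots. -/
theorem one_sub_hel {y : Fin 3 → ℝ} (hy : Simp y) (j : Fin 3) :
    1 - hel (expo j) y = dd (qq j) y := by
  have hz : ∀ i, 0 ≤ 1 + y i := fun i => by linarith [hy.1 i]
  unfold dd hel hvec expo
  simp only [rpow_sixth (hz _), Fintype.card_perm, Fintype.card_fin, sum_perm3,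
    Fin.prod_univ_three]
  fin_cases j <;>
    simp [qq, q1, q2, q3, Equiv.swap_apply_def, Equiv.Perm.mul_apply, Nat.factorial] <;> ring

theorem simp_sum {y : Fin 3 → ℝ} (hy : Simp y) : y 2 = -y 0 - y 1 := by
  have h := hy.2
  rw [Fin.sum_univ_three] at h
  linarith

/-- The root point of a vector in the simplex. -/
theorem root_of_simp {y : Fin 3 → ℝ} (hy : Simp y) :
    Root (s6 (1 + y 0)) (s6 (1 + y 1)) (s6 (1 + y 2)) := by
  have hz : ∀ i, 0 ≤ 1 + y i := fun i => by linarith [hy.1 i]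
  exact ⟨s6_nonneg (hz 0), s6_nonneg (hz 1), s6_nonneg (hz 2), by
    rw [s6_pow (hz 0), s6_pow (hz 1), s6_pow (hz 2)]; linarith [simp_sum hy]⟩

theorem smul_simp {y : Fin 3 → ℝ} (hy : Simp y) {l : ℝ} (hl : 0 ≤ l) (hl5 : 5 * l ^ 2 ≤ 1) :
    Simp fun i => -l * y i := by
  have h2 : l ≤ 1 / 2 := by nlinarith
  exact lam_smul_simp (q := 3) (by norm_num) (by norm_num; linarith) (by linarith) hy

theorem small_of_simp {y : Fin 3 → ℝ} (hy : Simp y) {l : ℝ} (hl : 0 ≤ l) (hl5 : 5 * l ^ 2 ≤ 1) :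
    Small (s6 (1 + -l * y 0)) (s6 (1 + -l * y 1)) (s6 (1 + -l * y 2)) := by
  have hs := smul_simp hy hl hl5
  have h4 : l ≤ 44722 / 100000 := by nlinarith
  have hb : ∀ i, s6 (1 + -l * y i) ^ 6 ≤ 144722 / 100000 := by
    intro i
    rw [s6_pow (by linarith [hs.1 i])]
    nlinarith [mul_nonneg hl (by linarith [hy.1 i] : 0 ≤ 1 + y i)]
  exact { root_of_simp hs with la := hb 0, lb := hb 1, lc := hb 2 }

theorem GG_eq (y : Fin 3 → ℝ) :
    GG y = lin (1 - q1 (s6 (1 + y 0)) (s6 (1 + y 1)) (s6 (1 + y 2)))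
      (1 - q2 (s6 (1 + y 0)) (s6 (1 + y 1)) (s6 (1 + y 2)))
      (1 - q3 (s6 (1 + y 0)) (s6 (1 + y 1)) (s6 (1 + y 2))) := rfl

/-- Constraints on `p = ∑ y ^ 2` and `t = ∑ y ^ 3`. -/
theorem pt_bounds {y : Fin 3 → ℝ} (hy : Simp y) :
    let p := y 0 ^ 2 + y 1 ^ 2 + y 2 ^ 2
    let t := y 0 ^ 3 + y 1 ^ 3 + y 2 ^ 3
    0 ≤ p ∧ p ≤ 6 ∧ 6 * t ^ 2 ≤ p ^ 3 ∧ 0 ≤ 1 - p / 2 + t / 3 := by
  intro p t
  have h0 := hy.1 0
  have h1 := hy.1 1
  have h2 := hy.1 2
  have e := simp_sum hy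
  have hp : 0 ≤ 1 + y 0 ∧ 0 ≤ 1 + y 1 ∧ 0 ≤ 1 + y 2 := ⟨by linarith, by linarith, by linarith⟩
  obtain ⟨a0, a1, a2⟩ := hp
  refine ⟨by positivity, ?_, ?_, ?_⟩
  · simp only [p]
    nlinarith [mul_nonneg a0 a1, mul_nonneg a0 a2, mul_nonneg a1 a2]
  · have key : p ^ 3 - 6 * t ^ 2 =
        2 * ((y 0 - y 1) * (2 * y 0 + y 1) * (y 0 + 2 * y 1)) ^ 2 := by
      simp only [p, t, e]; ring
    nlinarith [sq_nonneg ((y 0 - y 1) * (2 * y 0 + y 1) * (y 0 + 2 * y 1))]
  · have key : 1 - p / 2 + t / 3 = (1 + y 0) * (1 + y 1) * (1 + y 2) := by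
      simp only [p, t, e]; ring
    rw [key]; exact mul_nonneg (mul_nonneg a0 a1) a2

/-- The vector of the majorant at one child, in the variables `x = d m`. -/
def xx (l : ℝ) (j : Fin 3) (y : Fin 3 → ℝ) : ℝ := dd (qq j) (fun i => -l * y i) / l ^ 2

/-- The denominator of the final inequality is positive. -/
theorem den_pos {p t l : ℝ} (hp : 0 ≤ p) (hp6 : p ≤ 6) (ht : 6 * t ^ 2 ≤ p ^ 3)
    (hv : 0 ≤ 1 - p / 2 + t / 3) (hl : 0 < l) (hl5 : 5 * l ^ 2 ≤ 1) :
    0 < 2 + 5 * (xLo (l ^ 2 * p) (-(l ^ 3 * t)) / l ^ 2) := by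
  have l4 : l ≤ 9 / 20 := by nlinarith
  have p3 : p ^ 3 ≤ 216 := le_trans (pow_le_pow_left₀ hp hp6 3) (by norm_num)
  obtain ⟨-, t2⟩ := abs_le.1 (abs_le_of_sq_le_sq (a := t) (b := 6) (by linarith) (by norm_num))
  have t1 : -(3 / 4) ≤ t := by
    by_contra hc
    have h1 : p ≤ 3 / 2 := by linarith
    have h2 : p ^ 3 ≤ 27 / 8 := le_trans (pow_le_pow_left₀ hp h1 3) (by norm_num)
    nlinarith
  have l3 : l ^ 3 ≤ 92 / 1000 := le_trans (pow_le_pow_left₀ hl.le l4 3) (by norm_num)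
  have hA : l ^ 3 * t ≤ 56 / 100 := by
    nlinarith [mul_le_mul_of_nonneg_left t2 (pow_pos hl 3).le]
  have hB : -(34 / 100) ≤ l * t := by
    nlinarith [mul_le_mul_of_nonneg_left t1 hl.le]
  have hC : -(42 / 100) ≤ l ^ 3 * p * t := by
    have h1 : l ^ 3 * p ≤ 56 / 100 := by
      have := mul_le_mul l3 hp6 hp (by norm_num)
      linarith
    nlinarith [mul_le_mul_of_nonneg_left t1 (mul_nonneg (pow_pos hl 3).le hp)]
  have e : xLo (l ^ 2 * p) (-(l ^ 3 * t)) / l ^ 2 = p / 6 + l * t / 9 +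
      (275 / 10000 * (l ^ 2 * p ^ 2) + 3966 / 100000 * (l ^ 3 * p * t)) /
        (1 + 95 / 100 * -(l ^ 3 * t)) := by
    unfold xLo; field_simp; ring
  have hD : 40 / 100 ≤ 1 + 95 / 100 * -(l ^ 3 * t) := by linarith
  have n1 : -(5 / 100) ≤ (275 / 10000 * (l ^ 2 * p ^ 2) + 3966 / 100000 * (l ^ 3 * p * t)) /
      (1 + 95 / 100 * -(l ^ 3 * t)) := by
    rw [le_div_iff₀ (by linarith)]
    have h5 : 0 ≤ 275 / 10000 * (l ^ 2 * p ^ 2) := by positivity
    linarith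
  rw [e]
  linarith

/-- The one-vector inequality. -/
theorem pointwise {y : Fin 3 → ℝ} (hy : Simp y) {l : ℝ} (hl : 0 < l) (hl5 : 5 * l ^ 2 ≤ 1) :
    Cone (xx l 0 y) (xx l 1 y) (xx l 2 y) ∧ xx l 0 y ≤ 2 ∧
    lin (xx l 0 y) (xx l 1 y) (xx l 2 y) + MM kk (xx l 0 y) (xx l 1 y) (xx l 2 y)
      + 1 / 5000 * (3 * chi y) ^ 2 ≤ GG y := by
  have hs := smul_simp hy hl.le hl5
  have hr := root_of_simp hy
  have hS := small_of_simp hy hl.le hl5
  set p := y 0 ^ 2 + y 1 ^ 2 + y 2 ^ 2 with hpd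
  set t := y 0 ^ 3 + y 1 ^ 3 + y 2 ^ 3 with htd
  obtain ⟨hp0, hp6, ht, hv⟩ := pt_bounds hy
  have hz : ∀ i, 0 ≤ 1 + y i := fun i => by linarith [hy.1 i]
  have hzs : ∀ i, 0 ≤ 1 + -l * y i := fun i => by linarith [hs.1 i]
  have e1 : pp (s6 (1 + y 0)) (s6 (1 + y 1)) (s6 (1 + y 2)) = p := by
    simp only [pp, s6_pow (hz _), hpd]; ring
  have e2 : tt (s6 (1 + y 0)) (s6 (1 + y 1)) (s6 (1 + y 2)) = t := by
    simp only [tt, s6_pow (hz _), htd]; ring
  have e3 : pp (s6 (1 + -l * y 0)) (s6 (1 + -l * y 1)) (s6 (1 + -l * y 2)) = l ^ 2 * p := by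
    simp only [pp, s6_pow (hzs _), hpd]; ring
  have e4 : tt (s6 (1 + -l * y 0)) (s6 (1 + -l * y 1)) (s6 (1 + -l * y 2)) = -(l ^ 3 * t) := by
    simp only [tt, s6_pow (hzs _), htd]; ring
  have hp0' : 0 ≤ p := hp0
  have hp6' : p ≤ 6 := hp6
  have ht' : 6 * t ^ 2 ≤ p ^ 3 := ht
  have L2 : 0 < l ^ 2 := by positivity
  have hG := lin_ge hr
  rw [e1, e2] at hG
  have hU := lin_le hS
  have hE := ee_le hS
  have hX := q1_le hS
  have hX2 := q1_ge hS
  rw [e3, e4] at hU hE hX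
  rw [e3] at hX2
  have hE0 := ee_nonneg hS
  have hC := cone hS
  have hF := final hp0' hp6' ht' hv hl hl5
  set u1 := 1 - q1 (s6 (1 + -l * y 0)) (s6 (1 + -l * y 1)) (s6 (1 + -l * y 2))
  set u2 := 1 - q2 (s6 (1 + -l * y 0)) (s6 (1 + -l * y 1)) (s6 (1 + -l * y 2))
  set u3 := 1 - q3 (s6 (1 + -l * y 0)) (s6 (1 + -l * y 1)) (s6 (1 + -l * y 2))
  have x0 : xx l 0 y = u1 / l ^ 2 := rfl
  have x1 : xx l 1 y = u2 / l ^ 2 := rfl
  have x2 : xx l 2 y = u3 / l ^ 2 := rfl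
  rw [x0, x1, x2]
  refine ⟨⟨?_, ?_, ?_, ?_, ?_, ?_, ?_⟩, ?_, ?_⟩
  · exact div_nonneg hC.h0 L2.le
  · exact le_of_le_of_eq (div_nonneg hC.h1 L2.le) (by ring)
  · exact le_of_le_of_eq (div_nonneg hC.h2 L2.le) (by ring)
  · exact le_of_le_of_eq (div_nonneg hC.h3 L2.le) (by ring)
  · exact le_of_le_of_eq (div_nonneg hC.h4 L2.le) (by ring)
  · exact le_of_le_of_eq (div_nonneg hC.h5 L2.le) (by ring)
  · exact le_of_le_of_eq (div_nonneg hC.h6 L2.le) (by ring)
  · rw [div_le_iff₀ L2]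
    linarith [mul_le_mul_of_nonneg_left hp6' L2.le]
  · have hchi : 3 * chi y = p := by simp [chi, Fin.sum_univ_three, hpd]; ring
    have hel : lin (u1 / l ^ 2) (u2 / l ^ 2) (u3 / l ^ 2) = lin u1 u2 u3 / l ^ 2 := by
      unfold lin; ring
    have hee : ee (u1 / l ^ 2) (u2 / l ^ 2) (u3 / l ^ 2) = ee u1 u2 u3 / l ^ 2 := by
      unfold ee; ring
    have hden := den_pos hp0' hp6' ht' hv hl hl5
    have hee0 : 0 ≤ ee u1 u2 u3 / l ^ 2 := div_nonneg hE0 L2.le
    have hsq : (ee u1 u2 u3 / l ^ 2) ^ 2 / (2 + 5 * (u1 / l ^ 2)) ≤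
        (eUp (l ^ 2 * p) (-(l ^ 3 * t)) / l ^ 2) ^ 2 /
          (2 + 5 * (xLo (l ^ 2 * p) (-(l ^ 3 * t)) / l ^ 2)) :=
      div_le_div₀ (sq_nonneg _) (pow_le_pow_left₀ hee0 (div_le_div_of_nonneg_right hE L2.le) 2)
        hden (by linarith [div_le_div_of_nonneg_right hX L2.le])
    have hlin : lin u1 u2 u3 / l ^ 2 ≤ gUp (l ^ 2 * p) (-(l ^ 3 * t)) / l ^ 2 :=
      div_le_div_of_nonneg_right hU L2.le
    rw [hchi, hel, GG_eq, MM, hee, mul_div_assoc]
    rw [mul_div_assoc] at hF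
    linarith [mul_le_mul_of_nonneg_left hsq (show (0 : ℝ) ≤ kk by norm_num [kk])]

/-- From a bound on the nonlinear part to nonreconstruction. -/
theorem aGW_zero_of_majorant {p : ℕ → ℝ} (hp : ∀ k, 0 ≤ p k)
    (hp1 : ∑' k, ENNReal.ofReal (p k) = 1) {l : ℝ} (hl : 0 < l) (hl5 : 5 * l ^ 2 ≤ 1)
    (hN : ∀ x : Fin 3 → ℝ, Cone (x 0) (x 1) (x 2) → x 0 ≤ 2 →
      ∑ j, coef j * (1 - (∑' k, p k * (1 - l ^ 2 * x j) ^ k) - x j)
        ≤ MM kk (x 0) (x 1) (x 2)) :
    Tendsto (fun n => aGW 3 p (-l) n) atTop (𝓝 0) := by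
  have h2 : l ≤ 1 / 2 := by nlinarith
  refine aGW_zero_of_hel (q := 3) (by norm_num) (by norm_num; linarith) (by linarith) hp hp1
    coef expo expo_ok (η := 9 / 5000) (by norm_num) ?_
  intro ι w y hw hs h1 hy
  have L2 : 0 < l ^ 2 := by positivity
  -- expectations of bounded functions
  have bd : ∀ f : ι → ℝ, (∃ C, ∀ x, |f x| ≤ C) → Summable fun x => w x * f x := by
    rintro f ⟨C, hC⟩
    refine Summable.of_norm_bounded (hs.mul_right C) fun x => ?_
    rw [Real.norm_eq_abs, abs_mul, abs_of_nonneg (hw x)]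
    exact mul_le_mul_of_nonneg_left (hC x) (hw x)
  have b1 : ∀ j, ∀ z : ι → Fin 3 → ℝ, (∀ x, Simp (z x)) →
      Summable fun x => w x * hel (expo j) (z x) := fun j z hz =>
    bd _ ⟨1, fun x => abs_le.2 ⟨by
      linarith [hvec_nonneg (expo j) (v := fun i => 1 + z x i) fun i => by linarith [(hz x).1 i],
        show hel (expo j) (z x) = hvec (expo j) fun i => 1 + z x i from rfl],
      hel_le_one (expo_ok j) (hz x)⟩⟩
  have hys : ∀ x, Simp (fun i => -l * y x i) := fun x => smul_simp (hy x) hl.le hl5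
  have bp : Summable fun x => w x * (3 * chi (y x)) ^ 2 :=
    bd _ ⟨729, fun x => by
      have h := chi_le_sq (q := 3) (by norm_num) (hy x)
      norm_num at h
      have h0 : 0 ≤ chi (y x) := by unfold chi; positivity
      rw [abs_of_nonneg (sq_nonneg _)]
      nlinarith⟩
  set X : Fin 3 → ℝ := fun j => ∑' x, w x * xx l j (y x) with hX
  have eH : ∀ j x, hel (expo j) (fun i => -l * y x i) = 1 - l ^ 2 * xx l j (y x) := by
    intro j x
    rw [xx, mul_div_cancel₀ _ L2.ne', ← one_sub_hel (hys x) j]; ring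
  have sX : ∀ j, HasSum (fun x => w x * xx l j (y x)) (X j) := fun j => by
    refine (Summable.congr ((hs.sub (b1 j _ hys)).mul_left (1 / l ^ 2)) fun x => ?_).hasSum
    rw [eH]; field_simp; ring
  have mH : ∀ j, ∑' x, w x * hel (expo j) (fun i => -l * y x i) = 1 - l ^ 2 * X j := fun j => by
    refine HasSum.tsum_eq ?_
    have h := (h1 ▸ hs.hasSum).sub ((sX j).mul_left (l ^ 2))
    refine h.congr_fun fun x => ?_
    rw [eH]; ring
  have sG : ∀ j, HasSum (fun x => w x * dd (qq j) (y x))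
      (1 - ∑' x, w x * hel (expo j) (y x)) := fun j => by
    refine ((h1 ▸ hs.hasSum).sub (b1 j _ hy).hasSum).congr_fun fun x => ?_
    rw [← one_sub_hel (hy x) j]; ring
  simp only [mH]
  -- the cone
  have lin3 : ∀ a b c : ℝ, HasSum
      (fun x => w x * (a * xx l 0 (y x) + b * xx l 1 (y x) + c * xx l 2 (y x)))
      (a * X 0 + b * X 1 + c * X 2) := fun a b c => by
    refine ((((sX 0).mul_left a).add ((sX 1).mul_left b)).add ((sX 2).mul_left c)).congr_fun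
      fun x => ?_
    ring
  have hpt := fun x => pointwise (hy x) hl hl5
  have pos3 : ∀ a b c : ℝ, (∀ x, 0 ≤ a * xx l 0 (y x) + b * xx l 1 (y x) + c * xx l 2 (y x)) →
      0 ≤ a * X 0 + b * X 1 + c * X 2 := fun a b c h =>
    (lin3 a b c).nonneg fun x => mul_nonneg (hw x) (h x)
  have hC : Cone (X 0) (X 1) (X 2) := by
    refine ⟨?_, ?_, ?_, ?_, ?_, ?_, ?_⟩
    · simpa using pos3 1 0 0 fun x => by simpa using (hpt x).1.h0
    · linarith [pos3 (-1451) 9810 (-10000) fun x => by linarith [(hpt x).1.h1]]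
    · linarith [pos3 780 (-9000) 10000 fun x => by linarith [(hpt x).1.h2]]
    · linarith [pos3 4422 (-13000) 10000 fun x => by linarith [(hpt x).1.h3]]
    · linarith [pos3 5976 (-14700) 10000 fun x => by linarith [(hpt x).1.h4]]
    · linarith [pos3 7169 (-16000) 10000 fun x => by linarith [(hpt x).1.h5]]
    · linarith [pos3 (-901) 1000 0 fun x => by linarith [(hpt x).1.h6]]
  have hw1 : HasSum w 1 := h1 ▸ hs.hasSum
  have hw74 := hw1.mul_right (2 : ℝ)
  rw [one_mul] at hw74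
  have hX0 : X 0 ≤ 2 := hasSum_le (fun x => mul_le_mul_of_nonneg_left (hpt x).2.1 (hw x))
    (sX 0) hw74
  have hN' := hN X hC hX0
  -- tangent line of the majorant at the mean
  set k : ℝ := kk with hk
  set s := ee (X 0) (X 1) (X 2) / (2 + 5 * X 0) with hsd
  have hden : 0 < 2 + 5 * X 0 := by linarith [hC.h0]
  have hMM : MM k (X 0) (X 1) (X 2) =
      k * (2 * s * ee (X 0) (X 1) (X 2) - s ^ 2 * (2 + 5 * X 0)) := by
    simp only [MM, hsd]; field_simp; ring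
  have hpw : ∀ x, lin (xx l 0 (y x)) (xx l 1 (y x)) (xx l 2 (y x))
      + k * (2 * s * ee (xx l 0 (y x)) (xx l 1 (y x)) (xx l 2 (y x))
        - s ^ 2 * (2 + 5 * xx l 0 (y x))) + 1 / 5000 * (3 * chi (y x)) ^ 2 ≤ GG (y x) := by
    intro x
    obtain ⟨hc, -, hin⟩ := hpt x
    have hd : 0 < 2 + 5 * xx l 0 (y x) := by linarith [hc.h0]
    have htan : 2 * s * ee (xx l 0 (y x)) (xx l 1 (y x)) (xx l 2 (y x))
        - s ^ 2 * (2 + 5 * xx l 0 (y x))
        ≤ ee (xx l 0 (y x)) (xx l 1 (y x)) (xx l 2 (y x)) ^ 2 / (2 + 5 * xx l 0 (y x)) := by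
      rw [le_div_iff₀ hd]
      nlinarith [sq_nonneg (ee (xx l 0 (y x)) (xx l 1 (y x)) (xx l 2 (y x))
        - s * (2 + 5 * xx l 0 (y x)))]
    have hk0 : (0 : ℝ) ≤ k := by norm_num [hk, kk]
    have := mul_le_mul_of_nonneg_left htan hk0
    rw [MM, mul_div_assoc] at hin
    linarith
  have hR : HasSum (fun x => w x * GG (y x))
      (lin (1 - ∑' x, w x * hel (expo 0) (y x)) (1 - ∑' x, w x * hel (expo 1) (y x))
        (1 - ∑' x, w x * hel (expo 2) (y x))) := by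
    refine ((((sG 0).mul_left (-110)).add ((sG 1).mul_left (15521 / 100))).sub
      ((sG 2).mul_left (3754 / 100))).congr_fun fun x => ?_
    show w x * lin (dd q1 (y x)) (dd q2 (y x)) (dd q3 (y x)) = _
    simp [lin, qq]; ring
  have hL := ((lin3 (-110 + k * (2 * s * 121 - s ^ 2 * 5)) (15521 / 100 + k * (2 * s * -180))
      (-(3754 / 100) + k * (2 * s * 60))).add ((h1 ▸ hs.hasSum).mul_left (-(2 * k * s ^ 2)))).add
      (bp.hasSum.mul_left (1 / 5000))
  have hle := hasSum_le (fun x => ?_) hL hR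
  · have hJ := sq_tsum_le hw hs h1 (f := fun x => 3 * chi (y x)) (B := 27) fun x => by
      have h := chi_le_sq (q := 3) (by norm_num) (hy x)
      norm_num at h
      have h0 : 0 ≤ chi (y x) := by unfold chi; positivity
      rw [abs_of_nonneg (by linarith)]; linarith
    have h3 : ∑' x, w x * (3 * chi (y x)) = 3 * ∑' x, w x * chi (y x) := by
      rw [← tsum_mul_left]; exact tsum_congr fun x => by ring
    rw [h3] at hJ
    simp only [sum_coef] at hN' ⊢
    simp only [lin, ee] at hN' hMM hle ⊢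
    clear_value s k X
    have hsq : ∀ E : ℝ, (3 * E) ^ 2 = 9 * E ^ 2 := fun E => by ring
    have s1 : (-110 * X 0 + 15521 / 100 * X 1 - 3754 / 100 * X 2) + MM k (X 0) (X 1) (X 2) +
        1 / 5000 * ∑' x, w x * (3 * chi (y x)) ^ 2 ≤ -110 * (1 - ∑' x, w x * hel (expo 0) (y x)) +
        15521 / 100 * (1 - ∑' x, w x * hel (expo 1) (y x)) - 3754 / 100 * (1 - ∑' x, w x * hel (expo 2) (y x)) := by
      linarith only [hMM, hle]
    linarith only [hN', s1, hJ, hsq (∑' x, w x * chi (y x))]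
  · have := mul_le_mul_of_nonneg_left (hpw x) (hw x)
    simp only [lin, ee] at this
    nlinarith

/-- Critical nonreconstruction on regular trees, `d ≥ 5`. -/
theorem aReg_crit_five {d : ℕ} (hd : 5 ≤ d) :
    Tendsto (fun n => aReg 3 d (-(1 / Real.sqrt d)) n) atTop (𝓝 0) := by
  have hd' : (5 : ℝ) ≤ d := by exact_mod_cast hd
  have hs : 0 < Real.sqrt d := Real.sqrt_pos.2 (by linarith)
  have hl2 : (1 / Real.sqrt d) ^ 2 = 1 / d := by
    rw [div_pow, one_pow, Real.sq_sqrt (by linarith)]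
  have hp : ∀ k, 0 ≤ dirac d k := fun k => by unfold dirac; split_ifs <;> norm_num
  have hp1 : ∑' k, ENNReal.ofReal (dirac d k) = 1 := by
    rw [tsum_eq_single d fun k hk => by simp [dirac, hk]]; simp [dirac]
  have h := aGW_zero_of_majorant hp hp1 (l := 1 / Real.sqrt d) (by positivity)
    (by rw [hl2, mul_one_div, div_le_one (by linarith)]; linarith) fun x hc hx => ?_
  · simpa only [aGW_dirac] using h
  · simp only [tsum_dirac, hl2, sum_coef]
    have := regN_le hd hc hx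
    simpa [regN, div_eq_inv_mul] using this

/-- Critical nonreconstruction on Poisson trees, `d ≥ 5`. -/
theorem aPois_crit_five {d : ℝ} (hd : 5 ≤ d) :
    Tendsto (fun n => aGW 3 (poisWeight d) (-(1 / Real.sqrt d)) n) atTop (𝓝 0) := by
  have hl2 : (1 / Real.sqrt d) ^ 2 = 1 / d := by
    rw [div_pow, one_pow, Real.sq_sqrt (by linarith)]
  refine aGW_zero_of_majorant (poisWeight_nonneg (by linarith)) (tsum_poisWeight (by linarith))
    (l := 1 / Real.sqrt d) (by positivity)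
    (by rw [hl2, mul_one_div, div_le_one (by linarith)]; linarith) fun x hc hx => ?_
  have e : ∀ z : ℝ, -(d * (1 - (1 - 1 / d * z))) = -z := fun z => by
    have : d ≠ 0 := by linarith
    field_simp; ring
  simp only [tsum_poisWeight_pow, hl2, sum_coef, e]
  exact poisN_le hc hx

/-- Regular trees: `d * lam ^ 2 = 1` is the threshold when `d ≥ 5` or `lam ^ 2 ≤ 1 / 5`. -/
theorem reg_threshold_five {lam : ℝ} (h0 : -(1 / 2) ≤ lam) (h1 : lam ≤ 0) {d : ℕ} (hd : 2 ≤ d)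
    (hor : 5 ≤ d ∨ lam ^ 2 ≤ 1 / 5) :
    Tendsto (fun n => aReg 3 d lam n) atTop (𝓝 0) ↔ (d : ℝ) * lam ^ 2 ≤ 1 := by
  have hq : 2 ≤ 3 := by norm_num
  have hl : -1 / (((3 : ℕ) : ℝ) - 1) ≤ lam := by norm_num at *; linarith
  refine ⟨fun h => not_lt.1 fun hks =>
    not_tendsto_zero_of_ge (aReg_ge_of_ks hq hl (by linarith) hks) h, fun h => ?_⟩
  set D : ℕ := max d 5
  have hD : 5 ≤ D := le_max_right _ _
  have hD' : (5 : ℝ) ≤ D := by exact_mod_cast hD
  have hDl : (D : ℝ) * lam ^ 2 ≤ 1 := by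
    rcases le_total 5 d with h4 | h4
    · rwa [show D = d from max_eq_left h4]
    · rw [show D = 5 from max_eq_right h4]
      rcases hor with h5 | h5
      · rwa [show (5 : ℕ) = d from le_antisymm h5 h4]
      · push_cast; nlinarith
  obtain ⟨r, hr0, hr1, rfl⟩ :=
    neg_scale_critical (by positivity) h1 (neg_le_inv_sqrt (by linarith) hDl)
  exact aReg_tendsto_zero_mono hq (inv_sqrt_admissible (by linarith)).1
    (inv_sqrt_admissible (by linarith)).2 hr0 hr1 (le_max_left _ _) (aReg_crit_five hD)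

/-- Poisson trees: `d * lam ^ 2 = 1` is the threshold when `d ≥ 5` or `lam ^ 2 ≤ 1 / 5`. -/
theorem pois_threshold_five {lam : ℝ} (h0 : -(1 / 2) ≤ lam) (h1 : lam ≤ 0) {d : ℝ} (hd : 0 < d)
    (hor : 5 ≤ d ∨ lam ^ 2 ≤ 1 / 5) :
    Tendsto (fun n => aGW 3 (poisWeight d) lam n) atTop (𝓝 0) ↔ d * lam ^ 2 ≤ 1 := by
  have hq : 2 ≤ 3 := by norm_num
  have hl : -1 / (((3 : ℕ) : ℝ) - 1) ≤ lam := by norm_num at *; linarith
  refine ⟨fun h => not_lt.1 fun hks =>
    not_tendsto_zero_of_ge (aPois_ge_of_ks hq hl (by linarith) hd hks) h, fun h => ?_⟩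
  set D : ℝ := max d 5
  have hD : 5 ≤ D := le_max_right _ _
  have hDl : D * lam ^ 2 ≤ 1 := by
    rcases le_total 5 d with h4 | h4
    · rwa [show D = d from max_eq_left h4]
    · rw [show D = 5 from max_eq_right h4]
      rcases hor with h5 | h5
      · rwa [show (5 : ℝ) = d from le_antisymm h5 h4]
      · nlinarith
  obtain ⟨r, hr0, hr1, rfl⟩ :=
    neg_scale_critical (by positivity) h1 (neg_le_inv_sqrt (by linarith) hDl)
  exact aPois_tendsto_zero_mono hq (inv_sqrt_admissible (by linarith)).1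
    (inv_sqrt_admissible (by linarith)).2 hr0 hr1 hd.le (le_max_left _ _) (aPois_crit_five hD)

end Vale.P154.AF6
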