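import Vale.Agent.P154.AF.NCheck

/-! The four pieces of the cone. -/

namespace Vale.P154.AF6.NC

/-- Piece 0 of the cone with the full parameter box. -/
def cell0 : Cell :=
  ⟨⟨1000000, 901000, 738781⟩, ⟨1000000, 901000, 732900⟩,
    ⟨1000000, 910500, 741450⟩, 0, 201, 100, 0, 201, 1000⟩

/-- Piece 1 of the cone with the full parameter box. -/
def cell1 : Cell :=
  ⟨⟨17000000, 15317000, 12559277⟩, ⟨17000000, 15478500, 12604650⟩,
    ⟨17000000, 15540000, 12684600⟩, 0, 201, 100, 0, 201, 1000⟩

/-- Piece 2 of the cone with the full parameter box. -/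
def cell2 : Cell :=
  ⟨⟨221000000, 199121000, 163270601⟩, ⟨221000000, 202020000, 164899800⟩,
    ⟨221000000, 202810000, 166061100⟩, 0, 201, 100, 0, 201, 1000⟩

/-- Piece 3 of the cone with the full parameter box. -/
def cell3 : Cell :=
  ⟨⟨8047000000, 7250347000, 5944970707⟩, ⟨8047000000, 7384670000, 6046577700⟩,
    ⟨8047000000, 7433400000, 6124545700⟩, 0, 201, 100, 0, 201, 1000⟩

end Vale.P154.AF6.NC
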