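import Vale.Agent.P154.AF.NTree

/-!
# The certified region

The four pieces cover the section `x1 = 1` of the cone.
-/

namespace Vale.P154.AF6.NC

theorem fp_false_ge {r s x e : ℝ} (hx : 0 ≤ x) (he : e ≤ 1 / 5)
    (hQ : 0 ≤ 11000 - 15521 * r ^ 2 + 3754 * s ^ 2) :
    fp rops true 1 r s x 1 e 1 ≤ fp rops false 1 r s x 1 e 1 := by
  have key : fp rops false 1 r s x 1 e 1 = fp rops true 1 r s x 1 e 1 +
      1000 * ((1 - e) * (1 - 2 * e) * (1 - 3 * e) * (1 - 4 * e) * (1 - 5 * e)) * (x * r) ^ 4 *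
        (11000 - 15521 * r ^ 2 + 3754 * s ^ 2) * (2 + 5 * x) := by
    simp only [fp, rops, sm, pw, Bool.false_eq_true, ↓reduceIte]
    push_cast
    ring
  rw [key]
  have h1 : 0 ≤ 1 - e := by linarith
  have h2 : 0 ≤ 1 - 2 * e := by linarith
  have h3 : 0 ≤ 1 - 3 * e := by linarith
  have h4 : 0 ≤ 1 - 4 * e := by linarith
  have h5 : 0 ≤ 1 - 5 * e := by linarith
  exact le_add_of_nonneg_right (by positivity)

/-- The quadratic form is nonnegative on the first three pieces. -/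
theorem qf_nonneg {r s : ℝ} (hl : (901 : ℝ) / 1000 ≤ r) (hr : r ≤ 9177 / 10000)
    (hb : 0 ≤ 11000 - 15521 * ((901 / 1000 + 9177 / 10000) * r - 901 / 1000 * (9177 / 10000))
      + 3754 * (149 / 100 * s - 555025 / 1000000)) : 0 ≤ 11000 - 15521 * r ^ 2 + 3754 * s ^ 2 := by
  nlinarith [sq_nonneg (s - 745 / 1000), mul_nonneg (sub_nonneg.2 hl) (sub_nonneg.2 hr)]

theorem cert (up : Bool) {r s x e : ℝ} (h : Cone 1 r s) (hx0 : 0 ≤ x) (hx : x ≤ 2) (he0 : 0 ≤ e)
    (he : e ≤ 1 / 5) : 0 ≤ fp rops up 1 r s x 1 e 1 := by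
  obtain ⟨-, h1, h2, h3, h4, h5, h6⟩ := h
  rcases le_total 0 ((9227301 / 111739000000 : ℝ) + (2669 / 55869500 : ℝ) * r + (-1 / 5881 : ℝ) * s) with hc0 | hc0
  · suffices ht : 0 ≤ fp rops true 1 r s x 1 e 1 from Bool.rec ((fp_false_ge hx0 he (qf_nonneg (by linarith) (by linarith) (by linarith))).trans' ht) ht up
    refine okT0 _ _ _ _ _ ⟨⟨(39 / 2940500 : ℝ) + (-9 / 58810 : ℝ) * r + (1 / 5881 : ℝ) * s,
      (9227301 / 111739000000 : ℝ) + (2669 / 55869500 : ℝ) * r + (-1 / 5881 : ℝ) * s,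
      (-901 / 9500000 : ℝ) + (1 / 9500 : ℝ) * r + (0 / 1 : ℝ) * s,
      by linarith, by linarith, by linarith, ?_, ?_, ?_⟩, ?_, ?_, ?_, ?_⟩ <;>
      simp only [comb, cell0] <;> push_cast <;> linarith
  rcases le_total 0 ((863869 / 168691425000 : ℝ) + (125323 / 10121485500 : ℝ) * r + (-446 / 20242971 : ℝ) * s) with hc1 | hc1
  · suffices ht : 0 ≤ fp rops true 1 r s x 1 e 1 from Bool.rec ((fp_false_ge hx0 he (qf_nonneg (by linarith) (by linarith) (by linarith))).trans' ht) ht up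
    refine okT1 _ _ _ _ _ ⟨⟨(737 / 274295000 : ℝ) + (-13 / 1645770 : ℝ) * r + (1 / 164577 : ℝ) * s,
      (863869 / 168691425000 : ℝ) + (125323 / 10121485500 : ℝ) * r + (-446 / 20242971 : ℝ) * s,
      (-3075767 / 396921000000 : ℝ) + (-2669 / 595381500 : ℝ) * r + (19 / 1190763 : ℝ) * s,
      by linarith, by linarith, by linarith, ?_, ?_, ?_⟩, ?_, ?_, ?_, ?_⟩ <;>
      simp only [comb, cell1] <;> push_cast <;> linarith
  rcases le_total 0 ((95531 / 940969000000 : ℝ) + (164147 / 122325970000 : ℝ) * r + (-217 / 122325970 : ℝ) * s) with hc2 | hc2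
  · suffices ht : 0 ≤ fp rops true 1 r s x 1 e 1 from Bool.rec ((fp_false_ge hx0 he (qf_nonneg (by linarith) (by linarith) (by linarith))).trans' ht) ht up
    refine okT2 _ _ _ _ _ ⟨⟨(747 / 3290413750 : ℝ) + (-147 / 263233100 : ℝ) * r + (1 / 2632331 : ℝ) * s,
      (95531 / 940969000000 : ℝ) + (164147 / 122325970000 : ℝ) * r + (-217 / 122325970 : ℝ) * s,
      (-2591607 / 7998236500000 : ℝ) + (-125323 / 159964730000 : ℝ) * r + (223 / 159964730 : ℝ) * s,
      by linarith, by linarith, by linarith, ?_, ?_, ?_⟩, ?_, ?_, ?_, ?_⟩ <;>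
      simp only [comb, cell2] <;> push_cast <;> linarith
  refine (Bool.rec (okF3) (okT3) up : Ok up cell3) _ _ _ _ _ ⟨⟨(7169 / 1133098070000 : ℝ) + (-8 / 566549035 : ℝ) * r + (1 / 113309807 : ℝ) * s,
      (-1451 / 301638700000 : ℝ) + (981 / 30163870000 : ℝ) * r + (-1 / 30163870 : ℝ) * s,
      (-95531 / 68616713000000 : ℝ) + (-164147 / 8920172690000 : ℝ) * r + (217 / 8920172690 : ℝ) * s,
      by linarith, by linarith, by linarith, ?_, ?_, ?_⟩, ?_, ?_, ?_, ?_⟩ <;>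
      simp only [comb, cell3] <;> push_cast <;> linarith

end Vale.P154.AF6.NC
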