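import Vale.Agent.P154.AF.NDef
import Vale.Agent.P154.AF.BoxCert

/-!
# Subdivision checker for the polynomial bound of the nonlinear part

The form `fp` is homogeneous in the cone point and in the numerators and denominators of the two
scalar parameters.  A leaf substitutes a triangle and two intervals and asks for nonnegative
coefficients; a node splits a triangle edge or an interval.
-/

namespace Vale.P154.AF6.NC

open Vale.P154.AF.Hom

/-- Polynomials in four variables. -/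
abbrev P4 : Type := List P3

def add4 : P4 → P4 → P4
  | [], q => q
  | p, [] => p
  | a :: p, b :: q => add3 a b :: add4 p q

def mul4 : P4 → P4 → P4
  | [], _ => []
  | a :: p, q => add4 (q.map (mul3 a)) ([] :: mul4 p q)

noncomputable def ev4 : P4 → ℝ → ℝ → ℝ → ℝ → ℝ
  | [], _, _, _, _ => 0
  | a :: p, t, x, y, z => ev3 a x y z + t * ev4 p t x y z

theorem ev4_add (p q : P4) (t x y z : ℝ) :
    ev4 (add4 p q) t x y z = ev4 p t x y z + ev4 q t x y z := by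
  induction p generalizing q with
  | nil => simp [add4, ev4]
  | cons a p ih =>
    cases q with
    | nil => simp [add4, ev4]
    | cons b q => simp [add4, ev4, ev3_add, ih]; ring

theorem ev4_smul (a : P3) (q : P4) (t x y z : ℝ) :
    ev4 (q.map (mul3 a)) t x y z = ev3 a x y z * ev4 q t x y z := by
  induction q with
  | nil => simp [ev4]
  | cons b q ih => simp [ev4, ev3_mul, ih]; ring

theorem ev4_mul (p q : P4) (t x y z : ℝ) :
    ev4 (mul4 p q) t x y z = ev4 p t x y z * ev4 q t x y z := by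
  induction p with
  | nil => simp [mul4, ev4]
  | cons a p ih => simp [mul4, ev4, ev3, ev4_add, ev4_smul, ih]; ring

theorem ev4_nonneg (p : P4) (h : p.all fun a => a.all nn) {t x y z : ℝ} (ht : 0 ≤ t) (hx : 0 ≤ x)
    (hy : 0 ≤ y) (hz : 0 ≤ z) : 0 ≤ ev4 p t x y z := by
  induction p with
  | nil => simp [ev4]
  | cons a p ih =>
    simp only [List.all_cons, Bool.and_eq_true] at h
    have h1 := ev3_nonneg a h.1 hx hy hz
    have h2 := ih h.2
    simp only [ev4]; positivity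

/-- The operations used by `fp`. -/
structure Ops (α : Type) where
  add : α → α → α
  mul : α → α → α
  c : ℤ → α

/-- The real operations. -/
def rops : Ops ℝ := ⟨(· + ·), (· * ·), fun a => (a : ℝ)⟩

/-- The operations on coefficient lists. -/
def pops : Ops P4 := ⟨add4, mul4, fun a => [[[[a]]]]⟩

variable {α : Type}

/-- A power by repeated products. -/
def pw (o : Ops α) (a : α) : ℕ → α
  | 0 => o.c 1
  | n + 1 => o.mul a (pw o a n)

/-- An integer multiple. -/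
def sm (o : Ops α) (n : ℤ) (a : α) : α := o.mul (o.c n) a

/-- `72000000` times the difference of the two sides, made homogeneous. -/
def fp (o : Ops α) (up : Bool) (z r s X Xd E Ed : α) : α :=
  let h (j : ℤ) : α := o.add Ed (sm o (-j) E)
  let g2 := h 1
  let g3 := o.mul g2 (h 2)
  let g4 := o.mul g3 (h 3)
  let g5 := o.mul g4 (h 4)
  let g6 := o.mul g5 (h 5)
  let q := o.mul X r
  let t := o.mul Xd z
  let e4 := o.mul g2 (pw o Ed 4)
  let e3 := o.mul g3 (pw o Ed 3)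
  let e2 := o.mul g4 (pw o Ed 2)
  let e1 := o.mul g5 Ed
  let t2 := o.mul t t
  let q2 := o.mul q q
  let A0lo := o.add (o.add (sm o 360 (o.mul e4 (o.mul t2 t2)))
      (sm o (-120) (o.mul e3 (o.mul q (o.mul t2 t)))))
    (o.add (sm o 30 (o.mul e2 (o.mul q2 t2))) (sm o (-6) (o.mul e1 (o.mul (o.mul q2 q) t))))
  let A0 := if up then o.add A0lo (o.mul g6 (o.mul q2 q2)) else A0lo
  let A1 := o.add (o.add (sm o 120 (o.mul e3 (o.mul t2 t))) (sm o (-60) (o.mul e2 (o.mul q t2))))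
    (o.add (sm o 18 (o.mul e1 (o.mul q2 t))) (sm o (-4) (o.mul g6 (o.mul q2 q))))
  let z2 := o.mul z z
  let s2 := o.mul s s
  let d1 := o.add z (sm o (-1) r)
  let d3 := o.add r (sm o (-1) s)
  let Q := o.add (o.add (sm o 11000 z2) (sm o (-15521) (o.mul r r))) (sm o 3754 s2)
  let K := o.add (sm o 11000 (o.mul z2 d1)) (sm o (-3754) (o.mul s2 d3))
  let R := o.add (sm o 11000 (o.mul z2 (o.mul d1 d1))) (sm o 3754 (o.mul s2 (o.mul d3 d3)))
  let br := o.add (o.add (o.mul A0 Q) (sm o (-1) (o.mul A1 (o.mul K X))))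
    (sm o 30 (o.mul e2 (o.mul R (o.mul (o.mul X X) t2))))
  let E1 := o.add (o.add (sm o 121 z) (sm o (-180) r)) (sm o 60 s)
  o.add (sm o 62712000 (o.mul (o.mul E1 E1)
      (o.mul (pw o z 4) (o.mul (pw o Xd 5) (pw o Ed 5)))))
    (sm o (-1000) (o.mul br (o.add (sm o 2 Xd) (sm o 5 X))))

section

variable {t x y w : ℝ}

theorem ev4_addo (p q : P4) :
    ev4 (pops.add p q) t x y w = rops.add (ev4 p t x y w) (ev4 q t x y w) := ev4_add p q t x y w

theorem ev4_mulo (p q : P4) :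
    ev4 (pops.mul p q) t x y w = rops.mul (ev4 p t x y w) (ev4 q t x y w) := ev4_mul p q t x y w

theorem ev4_co (a : ℤ) : ev4 (pops.c a) t x y w = rops.c a := by
  simp [pops, rops, ev4, ev3, ev2, ev1]

theorem ev4_sm (a : ℤ) (p : P4) : ev4 (sm pops a p) t x y w = sm rops a (ev4 p t x y w) := by
  simp only [sm, ev4_mulo, ev4_co]

theorem ev4_pw (a : P4) (n : ℕ) : ev4 (pw pops a n) t x y w = pw rops (ev4 a t x y w) n := by
  induction n with
  | zero => exact ev4_co 1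
  | succ n ih => rw [pw, ev4_mulo, ih, pw]

theorem ev4_fp (up : Bool) (z r s X Xd E Ed : P4) :
    ev4 (fp pops up z r s X Xd E Ed) t x y w = fp rops up (ev4 z t x y w) (ev4 r t x y w)
      (ev4 s t x y w) (ev4 X t x y w) (ev4 Xd t x y w) (ev4 E t x y w) (ev4 Ed t x y w) := by
  cases up <;> simp only [fp, Bool.false_eq_true, ↓reduceIte, ev4_addo, ev4_mulo, ev4_sm, ev4_pw]

end

/-- Degrees `6`, `5`, `5` in the three groups. -/
theorem fp_smul (up : Bool) (a b c z r s X Xd E Ed : ℝ) :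
    fp rops up (a * z) (a * r) (a * s) (b * X) (b * Xd) (c * E) (c * Ed) =
      a ^ 6 * b ^ 5 * c ^ 5 * fp rops up z r s X Xd E Ed := by
  cases up <;> simp only [fp, rops, sm, pw, Bool.false_eq_true, ↓reduceIte] <;> push_cast <;> ring

theorem continuous_fp (up : Bool) (x e : ℝ) :
    Continuous fun p : ℝ × ℝ × ℝ => fp rops up p.1 p.2.1 p.2.2 x 1 e 1 := by
  cases up <;> simp only [fp, rops, sm, pw, Bool.false_eq_true, ↓reduceIte] <;> fun_prop

/-- A vertex of the cone. -/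
structure Vtx where
  z : ℤ
  r : ℤ
  s : ℤ

/-- A cell. -/
structure Cell where
  A : Vtx
  B : Vtx
  C : Vtx
  X0 : ℤ
  X1 : ℤ
  Xq : ℕ
  E0 : ℤ
  E1 : ℤ
  Eq : ℕ

/-- The vertices' combination. -/
noncomputable def comb (f : Vtx → ℤ) (b : Cell) (a u w : ℝ) : ℝ :=
  a * f b.A + u * f b.B + w * f b.C

/-- Membership. -/
def Cell.Mem (b : Cell) (z r s x e : ℝ) : Prop :=
  (∃ a u w : ℝ, 0 ≤ a ∧ 0 ≤ u ∧ 0 ≤ w ∧ z = comb Vtx.z b a u w ∧ r = comb Vtx.r b a u w ∧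
    s = comb Vtx.s b a u w) ∧
  (b.X0 : ℝ) ≤ x * b.Xq ∧ x * b.Xq < b.X1 ∧ (b.E0 : ℝ) ≤ e * b.Eq ∧ e * b.Eq < b.E1

/-- The leaf test. -/
def leaf (up : Bool) (b : Cell) : Bool :=
  (fp pops up [[[[b.A.z], [b.B.z]], [[b.C.z]]]] [[[[b.A.r], [b.B.r]], [[b.C.r]]]]
    [[[[b.A.s], [b.B.s]], [[b.C.s]]]] [[[[b.X0, b.X1]]]] [[[[(b.Xq : ℤ), (b.Xq : ℤ)]]]]
    [[[[b.E0]]], [[[b.E1]]]] [[[[(b.Eq : ℤ)]]], [[[(b.Eq : ℤ)]]]]).all fun a => a.all nn

/-- Twice a vertex. -/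
def dbl (v : Vtx) : Vtx := ⟨2 * v.z, 2 * v.r, 2 * v.s⟩

/-- The sum of two vertices. -/
def vadd (v w : Vtx) : Vtx := ⟨v.z + w.z, v.r + w.r, v.s + w.s⟩

theorem leaf_sound_pos {up : Bool} {b : Cell} (h : leaf up b = true) {a u w x e : ℝ}
    (ha : 0 < a) (hu : 0 ≤ u) (hw : 0 ≤ w) (hx0 : (b.X0 : ℝ) ≤ x * b.Xq) (hx1 : x * b.Xq < b.X1)
    (he0 : (b.E0 : ℝ) ≤ e * b.Eq) (he1 : e * b.Eq < b.E1) (hXq : 0 < b.Xq) (hEq : 0 < b.Eq) :
    0 ≤ fp rops up (comb Vtx.z b a u w) (comb Vtx.r b a u w) (comb Vtx.s b a u w) x 1 e 1 := by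
  have q0 : ∀ {l h : ℝ} {q : ℕ} {v : ℝ}, l ≤ v * q → v * q < h → ∃ ρ, 0 ≤ ρ ∧
      l + h * ρ = v * (q + q * ρ) := by
    intro l h q v h1 h2
    refine ⟨(v * q - l) / (h - v * q), div_nonneg (by linarith) (by linarith), ?_⟩
    field_simp [(sub_pos.2 h2).ne']
    ring
  obtain ⟨ρ, hρ, exx⟩ := q0 hx0 hx1
  obtain ⟨σ, hσ, exe⟩ := q0 he0 he1
  unfold leaf at h
  have h0 := ev4_nonneg _ h hσ (div_nonneg hw ha.le) (div_nonneg hu ha.le) hρ
  rw [ev4_fp] at h0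
  simp only [ev4, ev3, ev2, ev1, mul_zero, add_zero] at h0
  have qx : (0 : ℝ) < b.Xq := Nat.cast_pos.2 hXq
  have qe : (0 : ℝ) < b.Eq := Nat.cast_pos.2 hEq
  have dx : (0 : ℝ) < (b.Xq : ℝ) + b.Xq * ρ := by positivity
  have de : (0 : ℝ) < (b.Eq : ℝ) + b.Eq * σ := by positivity
  have sc := fp_smul up a⁻¹ ((b.Xq : ℝ) + b.Xq * ρ) ((b.Eq : ℝ) + b.Eq * σ)
    (comb Vtx.z b a u w) (comb Vtx.r b a u w) (comb Vtx.s b a u w) x 1 e 1
  have hc : ∀ f : Vtx → ℤ,
      a⁻¹ * comb f b a u w = (f b.A : ℝ) + u / a * f b.B + w / a * f b.C := by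
    intro f; simp only [comb]; field_simp
  simp only [hc, mul_one] at sc
  push_cast at h0
  rw [show ((b.Xq : ℝ) + b.Xq * ρ) * x = (b.X0 : ℝ) + ρ * b.X1 by linarith,
    show ((b.Eq : ℝ) + b.Eq * σ) * e = (b.E0 : ℝ) + σ * b.E1 by linarith] at sc
  have pos : 0 < a⁻¹ ^ 6 * ((b.Xq : ℝ) + b.Xq * ρ) ^ 5 * ((b.Eq : ℝ) + b.Eq * σ) ^ 5 := by positivity
  rw [mul_comm ρ (b.Xq : ℝ), mul_comm σ (b.Eq : ℝ), sc] at h0
  exact (mul_nonneg_iff_of_pos_left pos).1 h0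

theorem leaf_sound {up : Bool} {b : Cell} (h : leaf up b = true) {z r s x e : ℝ}
    (hm : b.Mem z r s x e) (hXq : 0 < b.Xq) (hEq : 0 < b.Eq) :
    0 ≤ fp rops up z r s x 1 e 1 := by
  obtain ⟨⟨a, u, w, ha, hu, hw, rfl, rfl, rfl⟩, hx0, hx1, he0, he1⟩ := hm
  rcases ha.eq_or_lt with rfl | ha
  swap
  · exact leaf_sound_pos h ha hu hw hx0 hx1 he0 he1 hXq hEq
  let g : ℝ → ℝ × ℝ × ℝ := fun a =>
    (comb Vtx.z b a u w, comb Vtx.r b a u w, comb Vtx.s b a u w)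
  have hc : Continuous fun a => fp rops up (g a).1 (g a).2.1 (g a).2.2 x 1 e 1 :=
    (continuous_fp up x e).comp (by simp only [g, comb]; fun_prop)
  exact ge_of_tendsto ((hc.tendsto 0).mono_left nhdsWithin_le_nhds)
    (eventually_nhdsWithin_of_forall (s := Set.Ioi (0 : ℝ)) fun a ha =>
      leaf_sound_pos h ha hu hw hx0 hx1 he0 he1 hXq hEq)

/-- The bound on a cell. -/
def Ok (up : Bool) (b : Cell) : Prop :=
  ∀ z r s x e : ℝ, b.Mem z r s x e → 0 ≤ fp rops up z r s x 1 e 1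

theorem split_X {up : Bool} {b : Cell}
    (hp : Ok up { b with X0 := 2 * b.X0, X1 := b.X0 + b.X1, Xq := 2 * b.Xq })
    (hq : Ok up { b with X0 := b.X0 + b.X1, X1 := 2 * b.X1, Xq := 2 * b.Xq }) : Ok up b := by
  intro z r s x e hm
  obtain ⟨hv, h0, h1, h2⟩ := hm
  rcases lt_or_ge (x * (2 * b.Xq : ℕ)) ((b.X0 + b.X1 : ℤ) : ℝ) with hc | hc
  · refine hp _ _ _ _ _ ⟨hv, ?_, hc, h2⟩
    push_cast; linarith
  · refine hq _ _ _ _ _ ⟨hv, hc, ?_, h2⟩
    push_cast; linarith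

theorem split_E {up : Bool} {b : Cell}
    (hp : Ok up { b with E0 := 2 * b.E0, E1 := b.E0 + b.E1, Eq := 2 * b.Eq })
    (hq : Ok up { b with E0 := b.E0 + b.E1, E1 := 2 * b.E1, Eq := 2 * b.Eq }) : Ok up b := by
  intro z r s x e hm
  obtain ⟨hv, h0, h1, h2, h3⟩ := hm
  rcases lt_or_ge (e * (2 * b.Eq : ℕ)) ((b.E0 + b.E1 : ℤ) : ℝ) with hc | hc
  · refine hp _ _ _ _ _ ⟨hv, h0, h1, ?_, hc⟩
    push_cast; linarith
  · refine hq _ _ _ _ _ ⟨hv, h0, h1, hc, ?_⟩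
    push_cast; linarith

theorem split_AB {up : Bool} {b : Cell}
    (hp : Ok up { b with A := dbl b.A, B := vadd b.A b.B, C := dbl b.C })
    (hq : Ok up { b with A := vadd b.A b.B, B := dbl b.B, C := dbl b.C }) : Ok up b := by
  intro z r s x e hm
  obtain ⟨⟨a, u, w, ha, hu, hw, rfl, rfl, rfl⟩, h0⟩ := hm
  rcases le_total u a with hc | hc
  · refine hp _ _ _ _ _ ⟨⟨(a - u) / 2, u, w / 2, by linarith, hu, by linarith,
      ?_, ?_, ?_⟩, h0⟩ <;> simp [comb, dbl, vadd] <;> ring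
  · refine hq _ _ _ _ _ ⟨⟨a, (u - a) / 2, w / 2, ha, by linarith, by linarith,
      ?_, ?_, ?_⟩, h0⟩ <;> simp [comb, dbl, vadd] <;> ring

theorem split_BC {up : Bool} {b : Cell}
    (hp : Ok up { b with A := dbl b.A, B := dbl b.B, C := vadd b.B b.C })
    (hq : Ok up { b with A := dbl b.A, B := vadd b.B b.C, C := dbl b.C }) : Ok up b := by
  intro z r s x e hm
  obtain ⟨⟨a, u, w, ha, hu, hw, rfl, rfl, rfl⟩, h0⟩ := hm
  rcases le_total w u with hc | hc
  · refine hp _ _ _ _ _ ⟨⟨a / 2, (u - w) / 2, w, by linarith, by linarith, hw,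
      ?_, ?_, ?_⟩, h0⟩ <;> simp [comb, dbl, vadd] <;> ring
  · refine hq _ _ _ _ _ ⟨⟨a / 2, u, (w - u) / 2, by linarith, hu, by linarith,
      ?_, ?_, ?_⟩, h0⟩ <;> simp [comb, dbl, vadd] <;> ring

theorem split_CA {up : Bool} {b : Cell}
    (hp : Ok up { b with A := dbl b.A, B := dbl b.B, C := vadd b.C b.A })
    (hq : Ok up { b with A := vadd b.C b.A, B := dbl b.B, C := dbl b.C }) : Ok up b := by
  intro z r s x e hm
  obtain ⟨⟨a, u, w, ha, hu, hw, rfl, rfl, rfl⟩, h0⟩ := hm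
  rcases le_total w a with hc | hc
  · refine hp _ _ _ _ _ ⟨⟨(a - w) / 2, u / 2, w, by linarith, by linarith, hw,
      ?_, ?_, ?_⟩, h0⟩ <;> simp [comb, dbl, vadd] <;> ring
  · refine hq _ _ _ _ _ ⟨⟨a, u / 2, (w - a) / 2, ha, by linarith, by linarith,
      ?_, ?_, ?_⟩, h0⟩ <;> simp [comb, dbl, vadd] <;> ring

theorem ok_leaf {up : Bool} {b : Cell} (h : leaf up b = true) (hx : 0 < b.Xq) (he : 0 < b.Eq) :
    Ok up b := fun _ _ _ _ _ hm => leaf_sound h hm hx he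

end Vale.P154.AF6.NC
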