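import Vale.Agent.P154.AF.Defs

/-!
# The polynomial bound for the nonlinear part

`nb up e x1 x2 x3` bounds `regN d` for `e = 1 / d`: alternating truncations of the binomial series
of `(1 - x2 / d) ^ i` and a second-order expansion around `x2`.
-/

noncomputable section

namespace Vale.P154.AF6

/-- `∏ i < n, (1 - i e)`. -/
def pf (e : ℝ) : ℕ → ℝ
  | 0 => 1
  | n + 1 => pf e n * (1 - n * e)

/-- The truncated series for the common factor, upper (`true`) or lower (`false`). -/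
def a0 (up : Bool) (e q : ℝ) : ℝ :=
  pf e 2 / 2 - pf e 3 / 6 * q + pf e 4 / 24 * q ^ 2 - pf e 5 / 120 * q ^ 3
    + if up then pf e 6 / 720 * q ^ 4 else 0

/-- The truncated series for the first-order factor (a lower bound). -/
def a1 (e q : ℝ) : ℝ :=
  pf e 3 / 6 - 2 * (pf e 4 / 24) * q + 3 * (pf e 5 / 120) * q ^ 2 - 4 * (pf e 6 / 720) * q ^ 3

/-- The quadratic form. -/
def qf (x1 x2 x3 : ℝ) : ℝ := 110 * x1 ^ 2 - 15521 / 100 * x2 ^ 2 + 3754 / 100 * x3 ^ 2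

/-- The cubic correction. -/
def kf (x1 x2 x3 : ℝ) : ℝ := 110 * x1 ^ 2 * (x1 - x2) - 3754 / 100 * x3 ^ 2 * (x2 - x3)

/-- The quartic correction. -/
def rf (x1 x2 x3 : ℝ) : ℝ :=
  110 * x1 ^ 2 * (x1 - x2) ^ 2 + 3754 / 100 * x3 ^ 2 * (x2 - x3) ^ 2

/-- The bound. -/
def nb (up : Bool) (e x1 x2 x3 : ℝ) : ℝ :=
  a0 up e x2 * qf x1 x2 x3 - a1 e x2 * kf x1 x2 x3 + pf e 4 / 24 * rf x1 x2 x3

end Vale.P154.AF6
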