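import Vale.Agent.P154.AF.NCheck
import Vale.Agent.P154.AF.KronBox

/-!
# Packed test for the cells of the polynomial bound

The coefficients of a cell form are read off from one evaluation at far apart powers of two.
-/

namespace Vale.P154.AF6.NC

open Vale.P154.AF.Hom

/-- Whatever is preserved by the three operations is preserved by `fp`. -/
theorem fp_rel {α β : Type} (o : Ops α) (o' : Ops β) (R : α → β → Prop)
    (ha : ∀ {p p' q q'}, R p p' → R q q' → R (o.add p q) (o'.add p' q'))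
    (hm : ∀ {p p' q q'}, R p p' → R q q' → R (o.mul p q) (o'.mul p' q'))
    (hc : ∀ a, R (o.c a) (o'.c a)) (up : Bool)
    {z r s X Xd E Ed : α} {z' r' s' X' Xd' E' Ed' : β} (hz : R z z') (hr : R r r') (hs : R s s')
    (hX : R X X') (hXd : R Xd Xd') (hE : R E E') (hEd : R Ed Ed') :
    R (fp o up z r s X Xd E Ed) (fp o' up z' r' s' X' Xd' E' Ed') := by
  cases up <;>
  · simp only [fp, sm, pw, Bool.false_eq_true, ↓reduceIte]
    repeat' (first | assumption | apply ha | apply hm | exact hc _)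

/-- The integer operations. -/
def zops : Ops ℤ := ⟨(· + ·), (· * ·), fun a => a⟩

/-- Bounds for the sum of absolute values. -/
def bops : Ops ℤ := ⟨(· + ·), (· * ·), fun a => |a|⟩

/-- Degree bounds in the three groups of variables. -/
def dops : Ops (ℕ × ℕ × ℕ) :=
  ⟨fun d e => (max d.1 e.1, max d.2.1 e.2.1, max d.2.2 e.2.2),
    fun d e => (d.1 + e.1, d.2.1 + e.2.1, d.2.2 + e.2.2), fun _ => (0, 0, 0)⟩

/-- Integer value of a coefficient list in four variables. -/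
def zev4 : P4 → ℤ → ℤ → ℤ → ℤ → ℤ
  | [], _, _, _, _ => 0
  | a :: p, t, x, y, z => zev3 a x y z + t * zev4 p t x y z

/-- Sum of absolute values. -/
def l4 : P4 → ℤ
  | [] => 0
  | a :: p => l3 a + l4 p

theorem cast_zev4 (p : P4) (t x y z : ℤ) : (zev4 p t x y z : ℝ) = ev4 p t x y z := by
  induction p with
  | nil => simp [zev4, ev4]
  | cons a p ih => simp [zev4, ev4, ih, cast_zev3]

theorem zev4_add (p q : P4) (t x y z : ℤ) :
    zev4 (add4 p q) t x y z = zev4 p t x y z + zev4 q t x y z := by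
  have h := ev4_add p q (t : ℝ) x y z
  simp only [← cast_zev4] at h
  exact_mod_cast h

theorem zev4_mul (p q : P4) (t x y z : ℤ) :
    zev4 (mul4 p q) t x y z = zev4 p t x y z * zev4 q t x y z := by
  have h := ev4_mul p q (t : ℝ) x y z
  simp only [← cast_zev4] at h
  exact_mod_cast h

theorem l4_nonneg (p : P4) : 0 ≤ l4 p := by
  induction p with
  | nil => simp [l4]
  | cons a p ih => simp only [l4]; linarith [l3_nonneg a]

theorem l4_add (p q : P4) : l4 (add4 p q) ≤ l4 p + l4 q := by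
  induction p generalizing q with
  | nil => simp [add4, l4]
  | cons a p ih =>
    cases q with
    | nil => simp [add4, l4]
    | cons b q => simp only [add4, l4]; linarith [ih q, l3_add a b]

theorem l4_smul (a : P3) (q : P4) : l4 (q.map (mul3 a)) ≤ l3 a * l4 q := by
  induction q with
  | nil => simp [l4]
  | cons b q ih => simp only [List.map_cons, l4, mul_add]; linarith [l3_mul a b]

theorem l4_mul (p q : P4) : l4 (mul4 p q) ≤ l4 p * l4 q := by
  induction p with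
  | nil => simp [mul4, l4]
  | cons a p ih =>
    simp only [mul4, l4, add_mul]
    refine (l4_add _ _).trans ?_
    simp only [l4, l3, zero_add]
    linarith [l4_smul a q]

/-- The lengths fit the degrees `d`. -/
def Fit4 (p : P4) (d : ℕ × ℕ × ℕ) : Prop :=
  p.length ≤ d.1 + 1 ∧ ∀ q ∈ p, Fit3 q d.2.1 d.2.2

theorem fit3_nil (a n : ℕ) : Fit3 [] a n := ⟨by simp, by simp⟩

theorem rows_add4 {a n : ℕ} : ∀ {p q : P4}, (∀ r ∈ p, Fit3 r a n) → (∀ r ∈ q, Fit3 r a n) →
    ∀ r ∈ add4 p q, Fit3 r a n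
  | [], q, _, hq => by simpa [add4] using hq
  | c :: p, [], hp, _ => by simpa [add4] using hp
  | c :: p, b :: q, hp, hq => by
      intro r hr
      simp only [add4, List.mem_cons] at hr
      rcases hr with rfl | hr
      · exact (hp c (by simp)).add (hq b (by simp))
      · exact rows_add4 (fun s h => hp s (by simp [h])) (fun s h => hq s (by simp [h])) r hr

theorem rows_mul4 {a b m n : ℕ} {q : P4} (hq : ∀ r ∈ q, Fit3 r b n) : ∀ {p : P4},
    (∀ r ∈ p, Fit3 r a m) → ∀ r ∈ mul4 p q, Fit3 r (a + b) (m + n)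
  | [], _ => by simp [mul4]
  | c :: p, hp => by
      refine rows_add4 (fun r hr => ?_) fun r hr => ?_
      · obtain ⟨s, hs, rfl⟩ := List.mem_map.1 hr
        exact (hp c (by simp)).mul (hq s hs)
      · rcases List.mem_cons.1 hr with rfl | hr
        · exact fit3_nil _ _
        · exact rows_mul4 hq (fun s h => hp s (by simp [h])) r hr

theorem length_add4 (p q : P4) : (add4 p q).length = max p.length q.length := by
  induction p generalizing q with
  | nil => simp [add4]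
  | cons a p ih =>
    cases q with
    | nil => simp [add4]
    | cons b q => simp [add4, ih]

theorem length_mul4 (q : P4) {b : ℕ} (hq : q.length ≤ b + 1) : ∀ (p : P4) {a : ℕ},
    p.length ≤ a + 1 → (mul4 p q).length ≤ a + b + 1
  | [], a, _ => by simp [mul4]
  | c :: p, a, hp => by
      simp only [List.length_cons, Nat.add_le_add_iff_right] at hp
      rw [mul4, length_add4, List.length_map, List.length_cons]
      rcases Nat.eq_zero_or_pos a with rfl | ha
      · rw [List.eq_nil_of_length_eq_zero (Nat.le_zero.1 hp)]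
        simp [mul4]; omega
      · have := length_mul4 q hq p (a := a - 1) (by omega)
        omega

theorem Fit4.add {p q : P4} {d e : ℕ × ℕ × ℕ} (hp : Fit4 p d) (hq : Fit4 q e) :
    Fit4 (add4 p q) (dops.add d e) := by
  refine ⟨?_, rows_add4 (fun r hr => (hp.2 r hr).mono (le_max_left _ _) (le_max_left _ _))
    fun r hr => (hq.2 r hr).mono (le_max_right _ _) (le_max_right _ _)⟩
  rw [length_add4]
  exact max_le (hp.1.trans (Nat.succ_le_succ (le_max_left _ _)))
    (hq.1.trans (Nat.succ_le_succ (le_max_right _ _)))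

theorem Fit4.mul {p q : P4} {d e : ℕ × ℕ × ℕ} (hp : Fit4 p d) (hq : Fit4 q e) :
    Fit4 (mul4 p q) (dops.mul d e) :=
  ⟨length_mul4 q hq.1 p hp.1, rows_mul4 hq.2 hp.2⟩

/-- One slice as a list. -/
def sl (n M : ℕ) (q : P3) : P1 := flat M (q.map (flat n))

theorem sl_spec (n M a : ℕ) (hM : (n + 1) * (n + 1) = M + 1) (w : ℤ) (q : P3) (h : Fit3 q a n) :
    zev1 (sl n M q) w = zev3 q (w ^ (M + 1)) (w ^ (n + 1)) w ∧
      (sl n M q).length ≤ (a + 1) * (M + 1) := by
  have hlen : ∀ r ∈ q.map (flat n), r.length ≤ M + 1 := by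
    intro r hr
    obtain ⟨u, hu, rfl⟩ := List.mem_map.1 hr
    rw [(zev1_flat n w u (h.2 u hu).2).2, ← hM]
    exact Nat.mul_le_mul_left _ (h.2 u hu).1
  obtain ⟨h1, h2⟩ := zev1_flat M w (q.map (flat n)) hlen
  refine ⟨by rw [sl, h1, zev2_map_flat n _ _ _ h.2], ?_⟩
  rw [sl, h2, List.length_map, mul_comm]
  exact Nat.mul_le_mul_right _ h.1

theorem zev2_map_sl (n M a : ℕ) (hM : (n + 1) * (n + 1) = M + 1) (t w : ℤ) : ∀ p : P4,
    (∀ q ∈ p, Fit3 q a n) →
      zev2 (p.map (sl n M)) t w = zev4 p t (w ^ (M + 1)) (w ^ (n + 1)) w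
  | [], _ => by simp [zev2, zev4]
  | q :: p, h => by
      simp only [List.map_cons, zev2, zev4, (sl_spec n M a hM w q (h q (by simp))).1,
        zev2_map_sl n M a hM t w p fun r hr => h r (by simp [hr])]

theorem abs_le_l4 : ∀ (p : P4), ∀ q ∈ p, l3 q ≤ l4 p
  | [], q, h => by simp at h
  | s :: p, q, h => by
      rcases List.mem_cons.1 h with rfl | h
      · simp only [l4]; linarith [l4_nonneg p]
      · simp only [l4]; linarith [abs_le_l4 p q h, l3_nonneg s]

/-- The packed leaf test with digits of `D` bits and `2 ^ j` digits. -/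
def leafK (up : Bool) (b : Cell) (D j : ℕ) : Bool :=
  let d := fp dops up (0, 1, 1) (0, 1, 1) (0, 1, 1) (0, 0, 1) (0, 0, 1) (1, 0, 0) (1, 0, 0)
  let W : ℤ := ((2 ^ D : ℕ) : ℤ)
  let Y : ℤ := ((2 ^ (D * (d.2.2 + 1)) : ℕ) : ℤ)
  let U : ℤ := ((2 ^ (D * ((d.2.2 + 1) * (d.2.2 + 1))) : ℕ) : ℤ)
  let T : ℤ := ((2 ^ (D * ((d.2.1 + 1) * ((d.2.2 + 1) * (d.2.2 + 1)))) : ℕ) : ℤ)
  let q : ℤ := (b.Xq : ℤ)
  let g : ℤ := (b.Eq : ℤ)
  let N := fp zops up (b.A.z + Y * b.B.z + U * b.C.z) (b.A.r + Y * b.B.r + U * b.C.r)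
    (b.A.s + Y * b.B.s + U * b.C.s) (b.X0 + W * b.X1) (q + W * q) (b.E0 + T * b.E1) (g + T * g)
  decide (1 ≤ D) &&
    decide (fp bops up (|b.A.z| + |b.B.z| + |b.C.z|) (|b.A.r| + |b.B.r| + |b.C.r|)
      (|b.A.s| + |b.B.s| + |b.C.s|) (|b.X0| + |b.X1|) (2 * q) (|b.E0| + |b.E1|) (2 * g)
        < ((2 ^ (D - 1) : ℕ) : ℤ)) &&
    decide (0 ≤ N) &&
    decide ((d.1 + 1) * ((d.2.1 + 1) * ((d.2.2 + 1) * (d.2.2 + 1))) ≤ 2 ^ j) &&
    Nat.beq (N.toNat &&& dblMask D j) 0

/-- The packed test proves the leaf test. -/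
theorem leaf_of_kron {up : Bool} {b : Cell} (D j : ℕ) (h : leafK up b D j = true) :
    leaf up b = true := by
  simp only [leafK, Bool.and_eq_true, decide_eq_true_eq] at h
  obtain ⟨⟨⟨⟨hD, hB⟩, hN⟩, hj⟩, hM⟩ := h
  push_cast at hB hN hM
  unfold leaf
  set d := fp dops up (0, 1, 1) (0, 1, 1) (0, 1, 1) (0, 0, 1) (0, 0, 1) (1, 0, 0) (1, 0, 0)
  set W : ℤ := (2 : ℤ) ^ D
  set Y : ℤ := (2 : ℤ) ^ (D * (d.2.2 + 1)) with hY
  set U : ℤ := (2 : ℤ) ^ (D * ((d.2.2 + 1) * (d.2.2 + 1))) with hU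
  set T : ℤ := (2 : ℤ) ^ (D * ((d.2.1 + 1) * ((d.2.2 + 1) * (d.2.2 + 1)))) with hT
  set p := fp pops up [[[[b.A.z], [b.B.z]], [[b.C.z]]]] [[[[b.A.r], [b.B.r]], [[b.C.r]]]]
    [[[[b.A.s], [b.B.s]], [[b.C.s]]]] [[[[b.X0, b.X1]]]] [[[[(b.Xq : ℤ), (b.Xq : ℤ)]]]]
    [[[[b.E0]]], [[[b.E1]]]] [[[[(b.Eq : ℤ)]]], [[[(b.Eq : ℤ)]]]]
  have hv : zev4 p T U Y W = fp zops up (b.A.z + Y * b.B.z + U * b.C.z)
      (b.A.r + Y * b.B.r + U * b.C.r) (b.A.s + Y * b.B.s + U * b.C.s) (b.X0 + W * b.X1)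
      ((b.Xq : ℤ) + W * b.Xq) (b.E0 + T * b.E1) ((b.Eq : ℤ) + T * b.Eq) :=
    fp_rel pops zops (fun p v => zev4 p T U Y W = v)
      (fun h h' => by simp [pops, zops, zev4_add, h, h'])
      (fun h h' => by simp [pops, zops, zev4_mul, h, h'])
      (fun a => by simp [pops, zops, zev4, zev3, zev2, zev1]) up
      (by simp [zev4, zev3, zev2, zev1]) (by simp [zev4, zev3, zev2, zev1])
      (by simp [zev4, zev3, zev2, zev1]) (by simp [zev4, zev3, zev2, zev1])
      (by simp [zev4, zev3, zev2, zev1]) (by simp [zev4, zev3, zev2, zev1])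
      (by simp [zev4, zev3, zev2, zev1])
  have hl : l4 p ≤ fp bops up (|b.A.z| + |b.B.z| + |b.C.z|) (|b.A.r| + |b.B.r| + |b.C.r|)
      (|b.A.s| + |b.B.s| + |b.C.s|) (|b.X0| + |b.X1|) (2 * b.Xq) (|b.E0| + |b.E1|) (2 * b.Eq) :=
    fp_rel pops bops (fun p v => l4 p ≤ v)
      (fun h h' => (l4_add _ _).trans (add_le_add h h'))
      (fun h h' => (l4_mul _ _).trans
        (mul_le_mul h h' (l4_nonneg _) ((l4_nonneg _).trans h)))
      (fun a => by simp [pops, bops, l4, l3, l2, l1]) up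
      (by simp [l4, l3, l2, l1]) (by simp [l4, l3, l2, l1]) (by simp [l4, l3, l2, l1])
      (by simp [l4, l3, l2, l1]) (by simp [l4, l3, l2, l1, two_mul])
      (by simp [l4, l3, l2, l1]) (by simp [l4, l3, l2, l1, two_mul])
  have hf : Fit4 p d :=
    fp_rel pops dops Fit4 Fit4.add Fit4.mul
      (fun a => by simp [pops, dops, Fit4, Fit3, Fits]) up
      (by simp [Fit4, Fit3, Fits]) (by simp [Fit4, Fit3, Fits]) (by simp [Fit4, Fit3, Fits])
      (by simp [Fit4, Fit3, Fits]) (by simp [Fit4, Fit3, Fits]) (by simp [Fit4, Fit3, Fits])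
      (by simp [Fit4, Fit3, Fits])
  clear_value p d
  obtain ⟨e, a, n⟩ := d
  simp only at hY hU hT hj hf
  obtain ⟨hf1, hf2⟩ : p.length ≤ e + 1 ∧ ∀ q ∈ p, Fit3 q a n := hf
  obtain ⟨M, hMe⟩ : ∃ M, (n + 1) * (n + 1) = M + 1 :=
    ⟨(n + 1) * (n + 1) - 1, by
      have : 1 ≤ (n + 1) * (n + 1) := Nat.one_le_iff_ne_zero.2 (by simp)
      omega⟩
  obtain ⟨L, hLe⟩ : ∃ L, (a + 1) * (M + 1) = L + 1 :=
    ⟨(a + 1) * (M + 1) - 1, by
      have : 1 ≤ (a + 1) * (M + 1) := Nat.one_le_iff_ne_zero.2 (by simp)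
      omega⟩
  have hlen : ∀ r ∈ p.map (sl n M), r.length ≤ L + 1 := by
    intro r hr
    obtain ⟨q, hq, rfl⟩ := List.mem_map.1 hr
    rw [← hLe]
    exact (sl_spec n M a hMe W q (hf2 q hq)).2
  obtain ⟨hflat, hfl⟩ := zev1_flat L W (p.map (sl n M)) hlen
  have eU : U = W ^ (M + 1) := by rw [← hMe, hU, pow_mul]
  have eY : Y = W ^ (n + 1) := by rw [hY, pow_mul]
  have eT : T = W ^ (L + 1) := by rw [← hLe, ← hMe, hT, pow_mul]
  rw [← hv] at hN hM
  have hval : zev1 (flat L (p.map (sl n M))) W = ((zev4 p T U Y W).toNat : ℤ) := by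
    rw [hflat, zev2_map_sl n M a hMe _ _ _ hf2, ← eT, ← eU, ← eY, Int.toNat_of_nonneg hN]
  have hsmall : ∀ c ∈ flat L (p.map (sl n M)), |c| < (2 : ℤ) ^ (D - 1) := by
    intro c hc
    rcases flat_mem L _ c hc with rfl | ⟨r, hr, hcr⟩
    · simp
    obtain ⟨q, hq, rfl⟩ := List.mem_map.1 hr
    rcases flat_mem M _ c hcr with rfl | ⟨u, hu, hcu⟩
    · simp
    obtain ⟨v, hv', rfl⟩ := List.mem_map.1 hu
    rcases flat_mem n v c hcu with rfl | ⟨t, ht, hct⟩
    · simp
    exact lt_of_le_of_lt ((((abs_le_l1 t c hct).trans (abs_le_l2 v t ht)).trans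
      ((abs_le_l3 q v hv').trans (abs_le_l4 p q hq))).trans hl) hB
  have hbits : ∀ i < (flat L (p.map (sl n M))).length,
      (zev4 p T U Y W).toNat.testBit (D * i + (D - 1)) = false := by
    intro i hi
    have hi' : i < (e + 1) * ((a + 1) * ((n + 1) * (n + 1))) := by
      rw [hfl, List.length_map] at hi
      rw [hMe, hLe, mul_comm]
      exact lt_of_lt_of_le hi (Nat.mul_le_mul_left _ hf1)
    have h0 := congrArg (fun m => m.testBit (D * i + (D - 1))) (Nat.eq_of_beq_eq_true hM)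
    simpa [Nat.testBit_and, dblMask_testBit (lt_of_lt_of_le hi' hj)] using h0
  have hall := digits_nonneg hD _ _ hsmall hval hbits
  simp only [nn, List.all_eq_true, decide_eq_true_eq]
  exact fun q hq v hv' t ht c hc => hall c (mem_flat L _ _ (List.mem_map.2 ⟨q, hq, rfl⟩) c
    (mem_flat M _ _ (List.mem_map.2 ⟨v, hv', rfl⟩) c (mem_flat n v t ht c hc)))

end Vale.P154.AF6.NC
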