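import Vale.Agent.P154.AF.NLeaf
import Vale.Agent.P154.AF.NCells

/-! The subdivisions of the four pieces. -/

namespace Vale.P154.AF6.NC

theorem okT0 : Ok true cell0 :=
  (split_X (split_X (split_BC (ok_leaf l0T0 (by decide) (by decide)) (split_E (split_X (ok_leaf l0T1 (by decide) (by decide)) (ok_leaf l0T2 (by decide) (by decide))) (ok_leaf l0T3 (by decide) (by decide)))) (split_BC (ok_leaf l0T4 (by decide) (by decide)) (split_E (ok_leaf l0T5 (by decide) (by decide)) (split_X (split_CA (ok_leaf l0T6 (by decide) (by decide)) (split_E (ok_leaf l0T7 (by decide) (by decide)) (split_X (split_BC (ok_leaf l0T8 (by decide) (by decide)) (ok_leaf l0T9 (by decide) (by decide))) (split_BC (ok_leaf l0T10 (by decide) (by decide)) (ok_leaf l0T11 (by decide) (by decide)))))) (ok_leaf l0T12 (by decide) (by decide)))))) (ok_leaf l0T13 (by decide) (by decide)))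

theorem okT1 : Ok true cell1 :=
  (split_X (split_X (split_CA (split_E (split_X (ok_leaf l1T0 (by decide) (by decide)) (ok_leaf l1T1 (by decide) (by decide))) (ok_leaf l1T2 (by decide) (by decide))) (split_E (split_X (ok_leaf l1T3 (by decide) (by decide)) (ok_leaf l1T4 (by decide) (by decide))) (ok_leaf l1T5 (by decide) (by decide)))) (ok_leaf l1T6 (by decide) (by decide))) (ok_leaf l1T7 (by decide) (by decide)))

theorem okT2 : Ok true cell2 :=
  (split_X (split_X (ok_leaf l2T0 (by decide) (by decide)) (ok_leaf l2T1 (by decide) (by decide))) (ok_leaf l2T2 (by decide) (by decide)))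

theorem okT3 : Ok true cell3 :=
  (split_X (split_X (ok_leaf l3T0 (by decide) (by decide)) (ok_leaf l3T1 (by decide) (by decide))) (ok_leaf l3T2 (by decide) (by decide)))

theorem okF3 : Ok false cell3 :=
  (split_X (split_X (ok_leaf l3F0 (by decide) (by decide)) (ok_leaf l3F1 (by decide) (by decide))) (ok_leaf l3F2 (by decide) (by decide)))

end Vale.P154.AF6.NC
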