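import Vale.Agent.P154.AF.Defs
import Vale.Agent.P154.AF.HomCert

/-!
# The region of small points

In decreasing order the sixth roots of a small point lie in the cone over three triangles with a
common vertex on the diagonal.
-/

noncomputable section

namespace Vale.P154.AF6.SmallCert

open AF.Hom

/-- An integer vector. -/
abbrev Vec : Type := ℤ × ℤ × ℤ

/-- The linear map with the given columns. -/
def linOf (p q r : Vec) : Lin := ⟨p.1, q.1, r.1, p.2.1, q.2.1, r.2.1, p.2.2, q.2.2, r.2.2⟩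

/-- Nonnegativity on the cone over a triangle. -/
def OnTri (e : E) (p q r : Vec) : Prop :=
  ∀ z u w : ℝ, 0 ≤ z → 0 ≤ u → 0 ≤ w →
    0 ≤ e.val (p.1 * z + q.1 * u + r.1 * w) (p.2.1 * z + q.2.1 * u + r.2.1 * w)
      (p.2.2 * z + q.2.2 * u + r.2.2 * w)

/-- The sum of two vectors. -/
def vadd (p q : Vec) : Vec := (p.1 + q.1, p.2.1 + q.2.1, p.2.2 + q.2.2)

theorem leaf {e : E} {p q r : Vec} (hd : e.deg.isSome = true)
    (h : nn (e.poly (linOf p q r)) = true) : OnTri e p q r := by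
  obtain ⟨n, hn⟩ := Option.isSome_iff_exists.1 hd
  intro z u w hz hu hw
  exact e.val_nonneg (linOf p q r) hn h hz hu hw

theorem splitPQ {e : E} {p q r : Vec} (h1 : OnTri e p (vadd p q) r) (h2 : OnTri e (vadd p q) q r) :
    OnTri e p q r := by
  intro z u w hz hu hw
  rcases le_total u z with h | h
  · refine (h1 (z - u) u w (by linarith) hu hw).trans_eq ?_
    congr 1 <;> simp only [vadd] <;> push_cast <;> ring
  · refine (h2 z (u - z) w hz (by linarith) hw).trans_eq ?_
    congr 1 <;> simp only [vadd] <;> push_cast <;> ring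

theorem splitPW {e : E} {p q r : Vec} (h1 : OnTri e p q (vadd p r)) (h2 : OnTri e (vadd p r) q r) :
    OnTri e p q r := by
  intro z u w hz hu hw
  rcases le_total w z with h | h
  · refine (h1 (z - w) u w (by linarith) hu hw).trans_eq ?_
    congr 1 <;> simp only [vadd] <;> push_cast <;> ring
  · refine (h2 z u (w - z) hz hu (by linarith)).trans_eq ?_
    congr 1 <;> simp only [vadd] <;> push_cast <;> ring

/-- The diagonal vertex. -/
def org : Vec := (100, 100, 100)
/-- The vertex on the axis `b = c`. -/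
def v0 : Vec := (111, 100, 100)
/-- The second vertex. -/
def v1 : Vec := (119, 112, 100)
/-- The third vertex. -/
def v2 : Vec := (133, 130, 100)
/-- The vertex on the axis `a = b`. -/
def v3 : Vec := (155, 155, 100)

/-- Bernstein coefficients bound the boundary polynomial from below. -/
theorem edge_pos {A0 A1 B0 B1 w : ℝ} (hw0 : 0 ≤ w) (hw1 : w ≤ 1)
    (k0 : 144722 * (B0 ^ 6 + 100 ^ 6) + 1 ≤ 155278 * A0 ^ 6)
    (k1 : 144722 * (B0 ^ 5 * B1 + 100 ^ 6) + 1 ≤ 155278 * (A0 ^ 5 * A1))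
    (k2 : 144722 * (B0 ^ 4 * B1 ^ 2 + 100 ^ 6) + 1 ≤ 155278 * (A0 ^ 4 * A1 ^ 2))
    (k3 : 144722 * (B0 ^ 3 * B1 ^ 3 + 100 ^ 6) + 1 ≤ 155278 * (A0 ^ 3 * A1 ^ 3))
    (k4 : 144722 * (B0 ^ 2 * B1 ^ 4 + 100 ^ 6) + 1 ≤ 155278 * (A0 ^ 2 * A1 ^ 4))
    (k5 : 144722 * (B0 * B1 ^ 5 + 100 ^ 6) + 1 ≤ 155278 * (A0 * A1 ^ 5))
    (k6 : 144722 * (B1 ^ 6 + 100 ^ 6) + 1 ≤ 155278 * A1 ^ 6) :
    144722 * (((1 - w) * B0 + w * B1) ^ 6 + 100 ^ 6) <
      155278 * ((1 - w) * A0 + w * A1) ^ 6 := by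
  have h : 0 ≤ 1 - w := by linarith
  have t0 := mul_nonneg (pow_nonneg h 6) (sub_nonneg.2 k0)
  have t1 := mul_nonneg (mul_nonneg (pow_nonneg h 5) hw0) (sub_nonneg.2 k1)
  have t2 := mul_nonneg (mul_nonneg (pow_nonneg h 4) (pow_nonneg hw0 2)) (sub_nonneg.2 k2)
  have t3 := mul_nonneg (mul_nonneg (pow_nonneg h 3) (pow_nonneg hw0 3)) (sub_nonneg.2 k3)
  have t4 := mul_nonneg (mul_nonneg (pow_nonneg h 2) (pow_nonneg hw0 4)) (sub_nonneg.2 k4)
  have t5 := mul_nonneg (mul_nonneg h (pow_nonneg hw0 5)) (sub_nonneg.2 k5)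
  have t6 := mul_nonneg (pow_nonneg hw0 6) (sub_nonneg.2 k6)
  linear_combination t0 + 6 * t1 + 15 * t2 + 20 * t3 + 15 * t4 + 6 * t5 + t6

theorem ordered {e : E} (t0 : OnTri e org v0 v1) (t1 : OnTri e org v1 v2) (t2 : OnTri e org v2 v3)
    {a b c : ℝ} (h : Small a b c) (hba : b ≤ a) (hcb : c ≤ b) : 0 ≤ e.val a b c := by
  obtain ⟨⟨ha, hb, hc, hs⟩, la, lb, lc⟩ := h
  have hc0 : 0 < c := by
    rcases hc.eq_or_lt with h0 | h0
    · subst h0; norm_num at hs; linarith
    · exact h0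
  have hX : 0 ≤ (a - b) * 100 / c := div_nonneg (by linarith) hc0.le
  have hY : 0 ≤ (b - c) * 100 / c := div_nonneg (by linarith) hc0.le
  set X := (a - b) * 100 / c with hXdef
  set Y := (b - c) * 100 / c with hYdef
  have ea : a = c / 100 * (100 + X + Y) := by rw [hXdef, hYdef]; field_simp; ring
  have eb : b = c / 100 * (100 + Y) := by rw [hYdef]; field_simp; ring
  have key : 155278 * (100 + X + Y) ^ 6 ≤ 144722 * ((100 + Y) ^ 6 + 100 ^ 6) := by
    have h1 : 300000 * a ^ 6 ≤ 144722 * (a ^ 6 + b ^ 6 + c ^ 6) := by linarith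
    rw [ea, eb] at h1
    refine le_of_mul_le_mul_left (a := (c / 100) ^ 6) ?_ (by positivity)
    linear_combination h1
  have far : Y < 55 := by
    by_contra hn
    push Not at hn
    have h1 : (100 + Y) ^ 6 ≤ (100 + X + Y) ^ 6 :=
      pow_le_pow_left₀ (by linarith) (by linarith) 6
    have h2 : (155 : ℝ) ^ 6 ≤ (100 + Y) ^ 6 := pow_le_pow_left₀ (by norm_num) (by linarith) 6
    linarith
  have edge : ∀ A0 A1 B0 B1 w : ℝ, 0 ≤ w → w ≤ 1 → 0 ≤ A0 → 0 ≤ A1 →
      100 + Y = (1 - w) * B0 + w * B1 → (1 - w) * A0 + w * A1 ≤ 100 + X + Y →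
      144722 * (((1 - w) * B0 + w * B1) ^ 6 + 100 ^ 6) < 155278 * ((1 - w) * A0 + w * A1) ^ 6 →
      False := by
    intro A0 A1 B0 B1 w w0 w1 h0 h1 eB hA hlt
    have h2 : 0 ≤ (1 - w) * A0 + w * A1 :=
      add_nonneg (mul_nonneg (by linarith) h0) (mul_nonneg w0 h1)
    have := pow_le_pow_left₀ h2 hA 6
    rw [← eB] at hlt
    linarith
  have L0 : Y ≤ 12 → X < 11 - 4 / 12 * Y := by
    intro hY'
    by_contra hn
    push Not at hn
    refine edge 111 119 100 112 (Y / 12) (by positivity) (by linarith) (by norm_num)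
      (by norm_num) (by ring) (by linarith) (edge_pos (by positivity) (by linarith) ?_ ?_ ?_ ?_ ?_
        ?_ ?_) <;> norm_num
  have L1 : 12 ≤ Y → Y ≤ 30 → X < 7 - 4 / 18 * (Y - 12) := by
    intro hY1 hY'
    by_contra hn
    push Not at hn
    refine edge 119 133 112 130 ((Y - 12) / 18) (by linarith) (by linarith) (by norm_num)
      (by norm_num) (by ring) (by linarith) (edge_pos (by linarith) (by linarith) ?_ ?_ ?_ ?_ ?_
        ?_ ?_) <;> norm_num
  have L2 : 30 ≤ Y → Y ≤ 55 → X < 3 - 3 / 25 * (Y - 30) := by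
    intro hY1 hY'
    by_contra hn
    push Not at hn
    refine edge 133 155 130 155 ((Y - 30) / 25) (by linarith) (by linarith) (by norm_num)
      (by norm_num) (by ring) (by linarith) (edge_pos (by linarith) (by linarith) ?_ ?_ ?_ ?_ ?_
        ?_ ?_) <;> norm_num
  have regions : (Y ≤ 12 ∧ X < 11 - 4 / 12 * Y) ∨
      (12 ≤ Y ∧ Y ≤ 30 ∧ X < 7 - 4 / 18 * (Y - 12)) ∨
      (30 ≤ Y ∧ X < 3 - 3 / 25 * (Y - 30)) := by
    rcases le_total Y 12 with h1 | h1
    · exact Or.inl ⟨h1, L0 h1⟩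
    rcases le_total Y 30 with h2 | h2
    · exact Or.inr (Or.inl ⟨h1, h2, L1 h1 h2⟩)
    · exact Or.inr (Or.inr ⟨h2, L2 h2 far.le⟩)
  have hk : 0 ≤ c / 100 := by positivity
  rcases le_total (7 * Y) (12 * X) with w0 | w0
  · have hD : 12 * X + 4 * Y ≤ 132 := by
      rcases regions with ⟨_, _⟩ | ⟨_, _, _⟩ | ⟨_, _⟩ <;> linarith
    refine (t0 (c / 100 * ((132 - (12 * X + 4 * Y)) / 132))
      (c / 100 * ((12 * X - 7 * Y) / 132)) (c / 100 * ((11 * Y - 0 * X) / 132))
      (mul_nonneg hk (by linarith)) (mul_nonneg hk (by linarith))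
      (mul_nonneg hk (by linarith))).trans_eq ?_
    congr 1 <;> simp only [org, v0, v1] <;> push_cast
    · linear_combination -ea
    · linear_combination -eb
    · ring
  rcases le_total (3 * Y) (30 * X) with w1 | w1
  · have hD : 18 * X + 4 * Y ≤ 174 := by
      rcases regions with ⟨_, _⟩ | ⟨_, _, _⟩ | ⟨_, _⟩ <;> linarith
    refine (t1 (c / 100 * ((174 - (18 * X + 4 * Y)) / 174))
      (c / 100 * ((30 * X - 3 * Y) / 174)) (c / 100 * ((7 * Y - 12 * X) / 174))
      (mul_nonneg hk (by linarith)) (mul_nonneg hk (by linarith))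
      (mul_nonneg hk (by linarith))).trans_eq ?_
    congr 1 <;> simp only [org, v1, v2] <;> push_cast
    · linear_combination -ea
    · linear_combination -eb
    · ring
  · have hD : 25 * X + 3 * Y ≤ 165 := by
      rcases regions with ⟨_, _⟩ | ⟨_, _, _⟩ | ⟨_, _⟩ <;> linarith
    refine (t2 (c / 100 * ((165 - (25 * X + 3 * Y)) / 165))
      (c / 100 * ((55 * X - 0 * Y) / 165)) (c / 100 * ((3 * Y - 30 * X) / 165))
      (mul_nonneg hk (by linarith)) (mul_nonneg hk (by linarith))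
      (mul_nonneg hk (by linarith))).trans_eq ?_
    congr 1 <;> simp only [org, v2, v3] <;> push_cast
    · linear_combination -ea
    · linear_combination -eb
    · ring

/-- Invariance under relabelling. -/
def Sym (e : E) : Prop :=
  (∀ a b c : ℝ, e.val b a c = e.val a b c) ∧ ∀ a b c : ℝ, e.val a c b = e.val a b c

theorem nonneg_small {e : E} (hs : Sym e) (t0 : OnTri e org v0 v1) (t1 : OnTri e org v1 v2)
    (t2 : OnTri e org v2 v3) {a b c : ℝ} (h : Small a b c) : 0 ≤ e.val a b c := by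
  have r12 : ∀ {a b c : ℝ}, Small a b c → Small b a c := fun h =>
    ⟨⟨h.hb, h.ha, h.hc, by linarith [h.hs]⟩, h.lb, h.la, h.lc⟩
  have r23 : ∀ {a b c : ℝ}, Small a b c → Small a c b := fun h =>
    ⟨⟨h.ha, h.hc, h.hb, by linarith [h.hs]⟩, h.la, h.lc, h.lb⟩
  have o : ∀ {a b c : ℝ}, Small a b c → b ≤ a → c ≤ b → 0 ≤ e.val a b c :=
    fun h => ordered t0 t1 t2 h
  rcases le_total b a with h1 | h1
  · rcases le_total c b with h2 | h2
    · exact o h h1 h2
    rcases le_total c a with h3 | h3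
    · rw [← hs.2]; exact o (r23 h) h3 h2
    · rw [← hs.2, ← hs.1]; exact o (r12 (r23 h)) h3 h1
  · rcases le_total c a with h2 | h2
    · rw [← hs.1]; exact o (r12 h) h1 h2
    rcases le_total c b with h3 | h3
    · rw [← hs.1, ← hs.2]; exact o (r23 (r12 h)) h3 h2
    · rw [← hs.1, ← hs.2, ← hs.1]; exact o (r12 (r23 (r12 h))) h3 h1

/-! ### The forms -/

/-- Sum of sixth powers. -/
def sE : E := .add (.add (.pow .A 6) (.pow .B 6)) (.pow .G 6)
/-- A deviation. -/
def yE (v : E) : E := .sub (.mul (.C 3) (.pow v 6)) sE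
/-- Nine times the sum of squares. -/
def pE : E := .add (.add (.pow (yE .A) 2) (.pow (yE .B) 2)) (.pow (yE .G) 2)
/-- Twenty-seven times the sum of cubes. -/
def tE : E := .add (.add (.pow (yE .A) 3) (.pow (yE .B) 3)) (.pow (yE .G) 3)
/-- The product. -/
def abg : E := .mul (.mul .A .B) .G
/-- Six times the first functional. -/
def x1E : E := .sub (.mul (.C 2) sE) (.mul (.C 6) (.pow abg 2))
/-- Six times the second functional. -/
def x2E : E :=
  .sub (.mul (.C 2) sE) (.mul abg (.add (.add (.mul (.pow .A 2) (.add .B .G))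
    (.mul (.pow .B 2) (.add .A .G))) (.mul (.pow .G 2) (.add .A .B))))
/-- Six times the third functional. -/
def x3E : E :=
  .sub (.mul (.C 2) sE) (.mul (.C 2) (.mul abg (.add (.add (.pow .A 3) (.pow .B 3)) (.pow .G 3))))
/-- Six times a linear combination. -/
def lE (l1 l2 l3 : ℤ) : E :=
  .add (.add (.mul (.C l1) x1E) (.mul (.C l2) x2E)) (.mul (.C l3) x3E)
/-- The square of the sum of squares. -/
def ppE : E := .pow pE 2
/-- The square of the sum of sixth powers. -/
def ssE : E := .pow sE 2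
/-- The product of the first two sums. -/
def psE : E := .mul pE sE
/-- The denominator in `gUp`. -/
def g2E : E := .sub (.mul (.C 10) (.pow sE 3)) (.mul (.C 7) tE)
/-- The denominator in `eUp`. -/
def e2E : E :=
  .sub (.add (.mul (.C 20) (.pow sE 3)) (.mul (.C 13) tE)) (.mul (.C 4) psE)
/-- The denominator in `xLo`. -/
def x2dE : E := .add (.mul (.C 20) (.pow sE 3)) (.mul (.C 19) tE)
/-- The slack of the denominator in `gUp`. -/
def d1E : E := .sub g2E (.pow sE 3)
/-- The slack of the denominator in `eUp`. -/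
def d2E : E := .sub e2E (.pow sE 3)
/-- The slack of the denominator in `xLo`. -/
def d3E : E := .sub x2dE (.pow sE 3)
/-- The first factor in `gE`. -/
def g1E : E := .sub (.mul (.C 4945) pE) (.mul (.C 36) (.mul (lE (-11000) 15521 (-3754)) sE))
/-- The first factor in `eE`. -/
def e1E : E :=
  .sub (.sub (.mul (.C 6) psE) (.mul (.C 19) tE)) (.mul (.C 18) (.mul (lE 121 (-180) 60) ssE))
/-- The first factor in `xE`. -/
def x0E : E := .add (.sub (.mul (.C 9) (.mul x1E ssE)) (.mul (.C 3) psE)) (.mul (.C 2) tE)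
/-- The bound for the Lyapunov function. -/
def gE : E := .add (.mul (.C 25) (.mul g1E g2E)) (.mul (.C 66816) (.mul ppE sE))
/-- The bound for the linear form of the majorant. -/
def eE : E :=
  .sub (.add (.mul (.C 1000) (.mul e1E e2E)) (.mul (.C 91080) (.mul ppE ssE)))
    (.mul (.C 144936) (.mul psE tE))
/-- The bound for the first functional. -/
def xE : E :=
  .add (.sub (.mul (.C 10000) (.mul x0E x2dE)) (.mul (.C 99000) (.mul ppE ssE)))
    (.mul (.C 142776) (.mul psE tE))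
/-- The crude bound for the first functional. -/
def mE : E := .sub (.mul (.C 2) pE) (.mul (.C 3) (.mul x1E sE))

variable (a b c : ℝ)

theorem sE_sym : sE.val b a c = sE.val a b c ∧ sE.val a c b = sE.val a b c := by
  constructor <;> simp [sE] <;> ring

theorem pE_sym : pE.val b a c = pE.val a b c ∧ pE.val a c b = pE.val a b c := by
  obtain ⟨h1, h2⟩ := sE_sym a b c
  constructor <;> simp [pE, yE, h1, h2] <;> ring

theorem tE_sym : tE.val b a c = tE.val a b c ∧ tE.val a c b = tE.val a b c := by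
  obtain ⟨h1, h2⟩ := sE_sym a b c
  constructor <;> simp [tE, yE, h1, h2] <;> ring

theorem x1E_sym : x1E.val b a c = x1E.val a b c ∧ x1E.val a c b = x1E.val a b c := by
  obtain ⟨h1, h2⟩ := sE_sym a b c
  constructor <;> simp [x1E, abg, h1, h2] <;> ring

theorem x2E_sym : x2E.val b a c = x2E.val a b c ∧ x2E.val a c b = x2E.val a b c := by
  obtain ⟨h1, h2⟩ := sE_sym a b c
  constructor <;> simp [x2E, abg, h1, h2] <;> ring

theorem x3E_sym : x3E.val b a c = x3E.val a b c ∧ x3E.val a c b = x3E.val a b c := by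
  obtain ⟨h1, h2⟩ := sE_sym a b c
  constructor <;> simp [x3E, abg, h1, h2] <;> ring

theorem lE_sym (l1 l2 l3 : ℤ) : Sym (lE l1 l2 l3) := by
  constructor <;> intro a b c <;>
    simp [lE, (x1E_sym a b c).1, (x1E_sym a b c).2, (x2E_sym a b c).1, (x2E_sym a b c).2,
      (x3E_sym a b c).1, (x3E_sym a b c).2]

theorem mE_sym : Sym mE := by
  constructor <;> intro a b c <;>
    simp [mE, (sE_sym a b c).1, (sE_sym a b c).2, (pE_sym a b c).1, (pE_sym a b c).2,
      (x1E_sym a b c).1, (x1E_sym a b c).2]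

theorem d1E_sym : Sym d1E := by
  constructor <;> intro a b c <;>
    simp [d1E, g2E, (sE_sym a b c).1, (sE_sym a b c).2, (tE_sym a b c).1, (tE_sym a b c).2]

theorem d2E_sym : Sym d2E := by
  constructor <;> intro a b c <;>
    simp [d2E, e2E, psE, (sE_sym a b c).1, (sE_sym a b c).2, (tE_sym a b c).1, (tE_sym a b c).2,
      (pE_sym a b c).1, (pE_sym a b c).2]

theorem d3E_sym : Sym d3E := by
  constructor <;> intro a b c <;>
    simp [d3E, x2dE, (sE_sym a b c).1, (sE_sym a b c).2, (tE_sym a b c).1, (tE_sym a b c).2]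

theorem gE_sym : Sym gE := by
  constructor <;> intro a b c <;>
    simp [gE, g1E, g2E, ppE, ((lE_sym _ _ _).1 a b c), ((lE_sym _ _ _).2 a b c), (sE_sym a b c).1,
      (sE_sym a b c).2, (pE_sym a b c).1, (pE_sym a b c).2, (tE_sym a b c).1, (tE_sym a b c).2]

theorem eE_sym : Sym eE := by
  constructor <;> intro a b c <;>
    simp [eE, e1E, e2E, ppE, ssE, psE, ((lE_sym _ _ _).1 a b c), ((lE_sym _ _ _).2 a b c), (sE_sym a b c).1,
      (sE_sym a b c).2, (pE_sym a b c).1, (pE_sym a b c).2, (tE_sym a b c).1, (tE_sym a b c).2]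

theorem xE_sym : Sym xE := by
  constructor <;> intro a b c <;>
    simp [xE, x0E, x2dE, ppE, ssE, psE, (x1E_sym a b c).1, (x1E_sym a b c).2, (sE_sym a b c).1, (sE_sym a b c).2,
      (pE_sym a b c).1, (pE_sym a b c).2, (tE_sym a b c).1, (tE_sym a b c).2]

end Vale.P154.AF6.SmallCert
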