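import Vale.Agent.P154.AF.SmallBase
import Vale.Agent.P154.AF.KronCert

/-!
# Certificates at small points
-/

noncomputable section

namespace Vale.P154.AF6.SmallCert

open AF.Hom

/-- A leaf checked by packing the coefficients. -/
theorem leafK {e : E} {p q r : Vec} (n K : ℕ) (hd : e.deg = some n)
    (h : e.kron (linOf p q r) n K = true) : OnTri e p q r :=
  leaf (by simp [hd]) (E.nn_of_kron hd h)

theorem g_tri0 : OnTri gE org v0 v1 :=
  leafK 30 560 (by decide +kernel) (by decide +kernel)

theorem g_tri1 : OnTri gE org v1 v2 :=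
  leafK 30 560 (by decide +kernel) (by decide +kernel)

theorem g_tri2 : OnTri gE org v2 v3 :=
  leafK 30 560 (by decide +kernel) (by decide +kernel)

theorem g_nonneg {a b c : ℝ} (h : Small a b c) : 0 ≤ gE.val a b c :=
  nonneg_small gE_sym g_tri0 g_tri1 g_tri2 h

theorem e_tri0 : OnTri eE org v0 v1 :=
  leafK 36 640 (by decide +kernel) (by decide +kernel)

theorem e_tri1 : OnTri eE org v1 v2 :=
  leafK 36 640 (by decide +kernel) (by decide +kernel)

theorem e_tri2 : OnTri eE org v2 v3 :=
  leafK 36 640 (by decide +kernel) (by decide +kernel)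

theorem e_nonneg {a b c : ℝ} (h : Small a b c) : 0 ≤ eE.val a b c :=
  nonneg_small eE_sym e_tri0 e_tri1 e_tri2 h

theorem x_tri0 : OnTri xE org v0 v1 :=
  leafK 36 640 (by decide +kernel) (by decide +kernel)

theorem x_tri1 : OnTri xE org v1 v2 :=
  leafK 36 640 (by decide +kernel) (by decide +kernel)

theorem x_tri2 : OnTri xE org v2 v3 :=
  leafK 36 640 (by decide +kernel) (by decide +kernel)

theorem x_nonneg {a b c : ℝ} (h : Small a b c) : 0 ≤ xE.val a b c :=
  nonneg_small xE_sym x_tri0 x_tri1 x_tri2 h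

theorem d1_tri0 : OnTri d1E org v0 v1 :=
  leafK 18 420 (by decide +kernel) (by decide +kernel)

theorem d1_tri1 : OnTri d1E org v1 v2 :=
  leafK 18 420 (by decide +kernel) (by decide +kernel)

theorem d1_tri2 : OnTri d1E org v2 v3 :=
  leafK 18 420 (by decide +kernel) (by decide +kernel)

theorem d1_nonneg {a b c : ℝ} (h : Small a b c) : 0 ≤ d1E.val a b c :=
  nonneg_small d1E_sym d1_tri0 d1_tri1 d1_tri2 h

theorem d2_tri0 : OnTri d2E org v0 v1 :=
  leafK 18 420 (by decide +kernel) (by decide +kernel)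

theorem d2_tri1 : OnTri d2E org v1 v2 :=
  leafK 18 420 (by decide +kernel) (by decide +kernel)

theorem d2_tri2 : OnTri d2E org v2 v3 :=
  leafK 18 420 (by decide +kernel) (by decide +kernel)

theorem d2_nonneg {a b c : ℝ} (h : Small a b c) : 0 ≤ d2E.val a b c :=
  nonneg_small d2E_sym d2_tri0 d2_tri1 d2_tri2 h

theorem d3_tri0 : OnTri d3E org v0 v1 :=
  leafK 18 420 (by decide +kernel) (by decide +kernel)

theorem d3_tri1 : OnTri d3E org v1 v2 :=
  leafK 18 420 (by decide +kernel) (by decide +kernel)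

theorem d3_tri2 : OnTri d3E org v2 v3 :=
  leafK 18 420 (by decide +kernel) (by decide +kernel)

theorem d3_nonneg {a b c : ℝ} (h : Small a b c) : 0 ≤ d3E.val a b c :=
  nonneg_small d3E_sym d3_tri0 d3_tri1 d3_tri2 h

theorem m_tri0 : OnTri mE org v0 v1 :=
  leafK 12 260 (by decide +kernel) (by decide +kernel)

theorem m_tri1 : OnTri mE org v1 v2 :=
  leafK 12 260 (by decide +kernel) (by decide +kernel)

theorem m_tri2 : OnTri mE org v2 v3 :=
  leafK 12 260 (by decide +kernel) (by decide +kernel)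

theorem m_nonneg {a b c : ℝ} (h : Small a b c) : 0 ≤ mE.val a b c :=
  nonneg_small mE_sym m_tri0 m_tri1 m_tri2 h

theorem h0_tri0 : OnTri (lE 1 0 0) org v0 v1 :=
  leafK 6 220 (by decide +kernel) (by decide +kernel)

theorem h0_tri1 : OnTri (lE 1 0 0) org v1 v2 :=
  leafK 6 220 (by decide +kernel) (by decide +kernel)

theorem h0_tri2 : OnTri (lE 1 0 0) org v2 v3 :=
  leafK 6 220 (by decide +kernel) (by decide +kernel)

theorem h0_nonneg {a b c : ℝ} (h : Small a b c) : 0 ≤ (lE 1 0 0).val a b c :=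
  nonneg_small (lE_sym _ _ _) h0_tri0 h0_tri1 h0_tri2 h

theorem ee_tri0 : OnTri (lE 121 (-180) 60) org v0 v1 :=
  leafK 6 220 (by decide +kernel) (by decide +kernel)

theorem ee_tri1 : OnTri (lE 121 (-180) 60) org v1 v2 :=
  leafK 6 220 (by decide +kernel) (by decide +kernel)

theorem ee_tri2 : OnTri (lE 121 (-180) 60) org v2 v3 :=
  leafK 6 220 (by decide +kernel) (by decide +kernel)

theorem ee_nonneg {a b c : ℝ} (h : Small a b c) : 0 ≤ (lE 121 (-180) 60).val a b c :=
  nonneg_small (lE_sym _ _ _) ee_tri0 ee_tri1 ee_tri2 h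

theorem h1_tri0 : OnTri (lE (-1451) 9810 (-10000)) org v0 v1 :=
  leafK 6 220 (by decide +kernel) (by decide +kernel)

theorem h1_tri1 : OnTri (lE (-1451) 9810 (-10000)) org v1 v2 :=
  leafK 6 220 (by decide +kernel) (by decide +kernel)

theorem h1_tri2 : OnTri (lE (-1451) 9810 (-10000)) org v2 v3 :=
  leafK 6 220 (by decide +kernel) (by decide +kernel)

theorem h1_nonneg {a b c : ℝ} (h : Small a b c) : 0 ≤ (lE (-1451) 9810 (-10000)).val a b c :=
  nonneg_small (lE_sym _ _ _) h1_tri0 h1_tri1 h1_tri2 h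

theorem h2_tri0 : OnTri (lE 780 (-9000) 10000) org v0 v1 :=
  leafK 6 220 (by decide +kernel) (by decide +kernel)

theorem h2_tri1 : OnTri (lE 780 (-9000) 10000) org v1 v2 :=
  splitPW (leafK 6 220 (by decide +kernel) (by decide +kernel)) (leafK 6 220 (by decide +kernel) (by decide +kernel))

theorem h2_tri2 : OnTri (lE 780 (-9000) 10000) org v2 v3 :=
  splitPQ (splitPW (splitPW (leafK 6 220 (by decide +kernel) (by decide +kernel)) (leafK 6 220 (by decide +kernel) (by decide +kernel))) (leafK 6 220 (by decide +kernel) (by decide +kernel))) (leafK 6 220 (by decide +kernel) (by decide +kernel))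

theorem h2_nonneg {a b c : ℝ} (h : Small a b c) : 0 ≤ (lE 780 (-9000) 10000).val a b c :=
  nonneg_small (lE_sym _ _ _) h2_tri0 h2_tri1 h2_tri2 h

theorem h3_tri0 : OnTri (lE 4422 (-13000) 10000) org v0 v1 :=
  leafK 6 220 (by decide +kernel) (by decide +kernel)

theorem h3_tri1 : OnTri (lE 4422 (-13000) 10000) org v1 v2 :=
  splitPW (leafK 6 220 (by decide +kernel) (by decide +kernel)) (leafK 6 220 (by decide +kernel) (by decide +kernel))

theorem h3_tri2 : OnTri (lE 4422 (-13000) 10000) org v2 v3 :=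
  splitPQ (splitPW (splitPW (splitPW (leafK 6 220 (by decide +kernel) (by decide +kernel)) (leafK 6 220 (by decide +kernel) (by decide +kernel))) (leafK 6 220 (by decide +kernel) (by decide +kernel))) (leafK 6 220 (by decide +kernel) (by decide +kernel))) (leafK 6 220 (by decide +kernel) (by decide +kernel))

theorem h3_nonneg {a b c : ℝ} (h : Small a b c) : 0 ≤ (lE 4422 (-13000) 10000).val a b c :=
  nonneg_small (lE_sym _ _ _) h3_tri0 h3_tri1 h3_tri2 h

theorem h4_tri0 : OnTri (lE 5976 (-14700) 10000) org v0 v1 :=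
  leafK 6 220 (by decide +kernel) (by decide +kernel)

theorem h4_tri1 : OnTri (lE 5976 (-14700) 10000) org v1 v2 :=
  splitPW (leafK 6 220 (by decide +kernel) (by decide +kernel)) (leafK 6 220 (by decide +kernel) (by decide +kernel))

theorem h4_tri2 : OnTri (lE 5976 (-14700) 10000) org v2 v3 :=
  splitPQ (splitPW (leafK 6 220 (by decide +kernel) (by decide +kernel)) (leafK 6 220 (by decide +kernel) (by decide +kernel))) (leafK 6 220 (by decide +kernel) (by decide +kernel))

theorem h4_nonneg {a b c : ℝ} (h : Small a b c) : 0 ≤ (lE 5976 (-14700) 10000).val a b c :=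
  nonneg_small (lE_sym _ _ _) h4_tri0 h4_tri1 h4_tri2 h

theorem h5_tri0 : OnTri (lE 7169 (-16000) 10000) org v0 v1 :=
  leafK 6 220 (by decide +kernel) (by decide +kernel)

theorem h5_tri1 : OnTri (lE 7169 (-16000) 10000) org v1 v2 :=
  leafK 6 220 (by decide +kernel) (by decide +kernel)

theorem h5_tri2 : OnTri (lE 7169 (-16000) 10000) org v2 v3 :=
  leafK 6 220 (by decide +kernel) (by decide +kernel)

theorem h5_nonneg {a b c : ℝ} (h : Small a b c) : 0 ≤ (lE 7169 (-16000) 10000).val a b c :=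
  nonneg_small (lE_sym _ _ _) h5_tri0 h5_tri1 h5_tri2 h

theorem h6_tri0 : OnTri (lE (-901) 1000 0) org v0 v1 :=
  leafK 6 220 (by decide +kernel) (by decide +kernel)

theorem h6_tri1 : OnTri (lE (-901) 1000 0) org v1 v2 :=
  leafK 6 220 (by decide +kernel) (by decide +kernel)

theorem h6_tri2 : OnTri (lE (-901) 1000 0) org v2 v3 :=
  leafK 6 220 (by decide +kernel) (by decide +kernel)

theorem h6_nonneg {a b c : ℝ} (h : Small a b c) : 0 ≤ (lE (-901) 1000 0).val a b c :=
  nonneg_small (lE_sym _ _ _) h6_tri0 h6_tri1 h6_tri2 h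

end Vale.P154.AF6.SmallCert
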